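import Vale.Agent.P157.High.Process

/-!
The two-term expansion of the pressure at high density, on the cube.
-/

open MeasureTheory ProbabilityTheory
open scoped BigOperators

namespace Vale.Agent.P157.High

open Rsb

variable {S : Type*} [Fintype S] [Nonempty S]

/-- The largest value. -/
noncomputable def top (u : S → ℝ) : ℝ := Finset.univ.sup' Finset.univ_nonempty u

lemma lse_bounds (u : S → ℝ) :
    top u ≤ Real.log (∑ σ, Real.exp (u σ)) ∧
      Real.log (∑ σ, Real.exp (u σ)) ≤ top u + Real.log (Fintype.card S) := by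
  have hpos : 0 < ∑ σ, Real.exp (u σ) :=
    Finset.sum_pos (fun σ _ => Real.exp_pos _) Finset.univ_nonempty
  obtain ⟨σ₀, -, h₀⟩ := Finset.exists_mem_eq_sup' Finset.univ_nonempty u
  constructor
  · rw [top, h₀, ← Real.log_exp (u σ₀)]
    exact Real.log_le_log (Real.exp_pos _) (Finset.single_le_sum
      (f := fun τ => Real.exp (u τ)) (fun τ _ => (Real.exp_pos _).le) (Finset.mem_univ σ₀))
  · have h := Finset.sum_le_card_nsmul Finset.univ (fun σ => Real.exp (u σ)) (Real.exp (top u))
      fun σ _ => Real.exp_le_exp.2 (Finset.le_sup' u (Finset.mem_univ σ))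
    rw [Finset.card_univ, nsmul_eq_mul] at h
    refine (Real.log_le_log hpos h).trans (le_of_eq ?_)
    rw [Real.log_mul (Nat.cast_ne_zero.2 Fintype.card_ne_zero) (Real.exp_ne_zero _), Real.log_exp]
    ring

lemma abs_top_le (u : S → ℝ) : |top u| ≤ ∑ σ, |u σ| := by
  obtain ⟨σ₀, -, h₀⟩ := Finset.exists_mem_eq_sup' Finset.univ_nonempty u
  rw [top, h₀]
  exact Finset.single_le_sum (f := fun τ => |u τ|) (fun τ _ => abs_nonneg _) (Finset.mem_univ σ₀)

lemma top_mul {c : ℝ} (hc : 0 ≤ c) (u : S → ℝ) : top (fun σ => c * u σ) = c * top u :=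
  (Finset.mul₀_sup' hc u Finset.univ Finset.univ_nonempty).symm

lemma measurable_top {Y : Type*} [MeasurableSpace Y] {u : Y → S → ℝ}
    (hm : ∀ σ, Measurable fun y => u y σ) : Measurable fun y => top (u y) := by
  have e : (fun y => top (u y)) = Finset.univ.sup' Finset.univ_nonempty (fun σ y => u y σ) :=
    funext fun y => by rw [Finset.sup'_apply]; rfl
  rw [e]
  exact Finset.measurable_sup' _ fun σ _ => hm σ

lemma integrable_top {Y : Type*} [MeasurableSpace Y] {μ : Measure Y} [IsFiniteMeasure μ]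
    {u : Y → S → ℝ} (hm : ∀ σ, Measurable fun y => u y σ)
    (hi : ∀ σ, Integrable (fun y => u y σ) μ) : Integrable (fun y => top (u y)) μ :=
  (integrable_finsetSum _ fun σ _ => (hi σ).abs).mono' (measurable_top hm).aestronglyMeasurable
    (ae_of_all _ fun y => abs_top_le (u y))

/-- The expected maximum of a Gaussian family given by a factor. -/
noncomputable def emax {κ : Type*} [Fintype κ] (A : S → κ → ℝ) : ℝ :=
  ∫ z, top (gf A z) ∂gaussVec κ

lemma gf_integrable {κ : Type*} [Fintype κ] (A : S → κ → ℝ) (σ : S) :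
    Integrable (fun z => gf A z σ) (gaussVec κ) :=
  integrable_linear (A σ) (F := fun y => y) measurable_id
    ((by simpa using integrable_pow_gauss 1 : Integrable (fun z : ℝ => z) (gaussianReal 0 1)).const_mul _)

lemma gf_measurable {κ : Type*} [Fintype κ] (A : S → κ → ℝ) (σ : S) :
    Measurable fun z => gf A z σ := measurable_linear (A σ)

/-- A sum of Gaussian increments is one Gaussian increment. -/
lemma accum_gauss {κ : Type*} [Fintype κ] (A : S → κ → ℝ) (s : ℝ) (M : ℕ) :
    accum (gaussVec κ) (gf A) s M (fun _ => 0)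
      = ∫ z, Real.log (∑ σ, Real.exp (s * Real.sqrt M * gf A z σ)) ∂gaussVec κ := by
  have hm : Measurable fun v : κ → ℝ => Real.log (∑ σ, Real.exp (s * gf A v σ)) :=
    (Finset.measurable_sum _ fun σ _ => ((gf_measurable A σ).const_mul s).exp).log
  have e : ∀ g : Fin M → κ → ℝ, Real.log (∑ σ, Real.exp (0 + ∑ a, s * gf A (g a) σ))
      = Real.log (∑ σ, Real.exp (s * gf A (fun j => ∑ a, g a j) σ)) := fun g => by
    refine congrArg _ (Finset.sum_congr rfl fun σ _ => ?_)
    simp only [zero_add, gf, Finset.sum_mul, Finset.mul_sum]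
    rw [Finset.sum_comm]
  simp only [accum, e]
  rw [← integral_map (φ := fun (g : Fin M → κ → ℝ) j => ∑ a, g a j)
    (f := fun v : κ → ℝ => Real.log (∑ σ, Real.exp (s * gf A v σ)))
    (Measurable.aemeasurable (by fun_prop)) hm.aestronglyMeasurable, map_sum_vec,
    integral_map (Measurable.aemeasurable (by fun_prop)) hm.aestronglyMeasurable]
  refine integral_congr_ae (ae_of_all _ fun z => congrArg _ (Finset.sum_congr rfl fun σ _ => ?_))
  simp only [gf, Finset.mul_sum]
  exact congrArg _ (Finset.sum_congr rfl fun i _ => by ring)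

lemma lse_gauss_bounds {κ : Type*} [Fintype κ] (A : S → κ → ℝ) {c : ℝ} (hc : 0 ≤ c) :
    c * emax A ≤ ∫ z, Real.log (∑ σ, Real.exp (c * gf A z σ)) ∂gaussVec κ ∧
      ∫ z, Real.log (∑ σ, Real.exp (c * gf A z σ)) ∂gaussVec κ
        ≤ c * emax A + Real.log (Fintype.card S) := by
  have hm : ∀ σ, Measurable fun z => c * gf A z σ := fun σ => (gf_measurable A σ).const_mul c
  have hi : ∀ σ, Integrable (fun z => c * gf A z σ) (gaussVec κ) :=
    fun σ => (gf_integrable A σ).const_mul c
  have iL := integrable_log_sum hm hi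
  have iT : Integrable (fun z => c * top (gf A z)) (gaussVec κ) :=
    (integrable_top (gf_measurable A) (gf_integrable A)).const_mul c
  have hb : ∀ z, c * top (gf A z) ≤ Real.log (∑ σ, Real.exp (c * gf A z σ)) ∧
      Real.log (∑ σ, Real.exp (c * gf A z σ))
        ≤ c * top (gf A z) + Real.log (Fintype.card S) := fun z => by
    rw [← top_mul hc]; exact lse_bounds _
  constructor
  · rw [emax, ← integral_const_mul]
    exact integral_mono iT iL fun z => (hb z).1
  · refine (integral_mono iL (iT.add (integrable_const _)) fun z => (hb z).2).trans (le_of_eq ?_)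
    rw [integral_add' iT (integrable_const _), integral_const_mul]
    simp [emax]

/-- The expansion with a free temperature `s`. -/
lemma pressure_expand {N : ℕ} (hN : 0 < N) {f : ℝ → ℝ} {B : ℝ} (hf : Measurable f)
    (hb : ∀ x, |f x| ≤ B) {m : ℕ} (A : (Fin N → Bool) → Fin m → ℝ)
    (hA : ∀ σ τ, ∑ i, A σ i * A τ i = covKer f σ τ) {α s : ℝ} (hs0 : 0 < s) (hs1 : s ≤ 1) :
    |pressure α f N (isingMeasure N) - (⌊α * N⌋₊ : ℝ) / N * (∫ z, f z ∂gaussianReal 0 1)
        - Real.sqrt ((⌊α * N⌋₊ : ℝ) / N) * (emax A / Real.sqrt N)|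
      ≤ Real.log 2 * (2 + 2 / s) + 60 * kapB B * ((⌊α * N⌋₊ : ℝ) / N) * s ^ 2 := by
  set M := ⌊α * N⌋₊
  set m₀ := ∫ z, f z ∂gaussianReal 0 1
  have hB : 0 ≤ B := (abs_nonneg _).trans (hb 0)
  have HU := inc_pattern (B := B) hN hf hb
  have HV := inc_gauss (B := B) A hA (covKer_diag hN hf) (vr_le hf hb) hB
  set X := accum (gaussVec (Fin N)) (fun g σ => cen f (lin g σ)) s M (fun _ => 0) with hX
  set Y := accum (gaussVec (Fin m)) (gf A) s M (fun _ => 0) with hY
  have h1 := accum_le HU HV (fun σ σ' => le_rfl) hs0 hs1 M fun _ => 0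
  have h2 := accum_le HV HU (fun σ σ' => le_rfl) hs0 hs1 M fun _ => 0
  rw [← hX, ← hY] at h1 h2
  have hlc : Real.log (Fintype.card (Fin N → Bool)) = N * Real.log 2 := by
    simp [Real.log_pow]
  obtain ⟨h3, h4⟩ := lse_gauss_bounds A (c := s * Real.sqrt M) (mul_nonneg hs0.le (Real.sqrt_nonneg _))
  rw [← accum_gauss, ← hY] at h3 h4
  rw [hlc] at h4
  set P := Measure.pi fun _ : Fin M => gaussVec (Fin N)
  set H : (Fin M → Fin N → ℝ) → (Fin N → Bool) → ℝ := fun g σ => ∑ a, cen f (lin (g a) σ)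
  have hHm : ∀ σ, Measurable fun g => H g σ := fun σ => Finset.measurable_sum _ fun a _ =>
    (measurable_cen hf).comp ((measurable_lin σ).comp (measurable_pi_apply a))
  have hHi : ∀ σ, Integrable (fun g => H g σ) P := fun σ => bdd_int (hHm σ) (C := M * (2 * B))
    fun g => by
      refine (Finset.abs_sum_le_sum_abs _ _).trans
        ((Finset.sum_le_sum fun a _ => cen_bdd hb _).trans ?_)
      simp
  have hXe : X = ∫ g, Real.log (∑ σ, Real.exp (s * H g σ)) ∂P := by
    simp [hX, accum, H, Finset.mul_sum, P]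
  set L := ∫ g, Real.log (∑ σ, Real.exp (H g σ)) ∂P
  have i1 : Integrable (fun g => Real.log (∑ σ, Real.exp (H g σ))) P := integrable_log_sum hHm hHi
  have hLX : |L - X / s| ≤ N * Real.log 2 * (1 + 1 / s) := by
    have i2 : Integrable (fun g => Real.log (∑ σ, Real.exp (s * H g σ)) / s) P :=
      (integrable_log_sum (fun σ => (hHm σ).const_mul s) fun σ => (hHi σ).const_mul s).div_const s
    rw [hXe, ← integral_div, ← integral_sub i1 i2]
    refine abs_integral_le_integral_abs.trans ((integral_mono (i1.sub i2).abs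
      (integrable_const (N * Real.log 2 * (1 + 1 / s))) fun g => ?_).trans (le_of_eq (by simp)))
    obtain ⟨a1, a2⟩ := lse_bounds (H g)
    obtain ⟨a3, a4⟩ := lse_bounds fun σ => s * H g σ
    rw [top_mul hs0.le] at a3 a4
    rw [hlc] at a2 a4
    have b3 : top (H g) ≤ Real.log (∑ σ, Real.exp (s * H g σ)) / s := by
      rw [le_div_iff₀ hs0]; linarith
    have b4 : Real.log (∑ σ, Real.exp (s * H g σ)) / s ≤ top (H g) + N * Real.log 2 / s := by
      rw [div_le_iff₀ hs0, add_mul, div_mul_cancel₀ _ hs0.ne']; linarith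
    have hl : 0 ≤ N * Real.log 2 / s :=
      div_nonneg (mul_nonneg (Nat.cast_nonneg _) (Real.log_nonneg (by norm_num))) hs0.le
    have hl' : 0 ≤ (N : ℝ) * Real.log 2 :=
      mul_nonneg (Nat.cast_nonneg _) (Real.log_nonneg (by norm_num))
    rw [mul_add, mul_one, mul_one_div, Pi.sub_apply, abs_le]
    constructor <;> linarith
  have hYX : |X / s - Real.sqrt M * emax A| ≤ N * Real.log 2 / s + M * (60 * s ^ 2 * kapB B) := by
    rw [show X / s - Real.sqrt M * emax A = (X - s * Real.sqrt M * emax A) / s by field_simp,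
      abs_div, abs_of_pos hs0, div_le_iff₀ hs0, add_mul, div_mul_cancel₀ _ hs0.ne']
    have hl' : 0 ≤ (N : ℝ) * Real.log 2 :=
      mul_nonneg (Nat.cast_nonneg _) (Real.log_nonneg (by norm_num))
    have e : (M : ℝ) * (30 * s ^ 3 * (kapB B + kapB B)) = M * (60 * s ^ 2 * kapB B) * s := by ring
    rw [e] at h1 h2
    rw [abs_le]
    constructor <;> linarith
  have hp : pressure α f N (isingMeasure N) * N = -(N * Real.log 2) + M * m₀ + L := by
    have hNr : (N : ℝ) ≠ 0 := Nat.cast_ne_zero.2 hN.ne'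
    simp only [pressure]
    rw [div_mul_cancel₀ _ hNr]
    have e : ∀ g : Fin M → Fin N → ℝ, Real.log (∫ x, Real.exp (∑ a, f ((∑ i, g a i * x i) / Real.sqrt N))
          ∂isingMeasure N) = (-(N * Real.log 2) + M * m₀) + Real.log (∑ σ, Real.exp (H g σ)) := by
      intro g
      rw [integral_cube (by fun_prop)]
      have hs : ∀ σ : Fin N → Bool, (2⁻¹ : ℝ) ^ N
          * Real.exp (∑ a, f ((∑ i, g a i * sg σ i) / Real.sqrt N))
          = Real.exp (-(N * Real.log 2) + M * m₀) * Real.exp (H g σ) := fun σ => by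
        rw [← Real.exp_add, show (2⁻¹ : ℝ) ^ N = Real.exp (-(N * Real.log 2)) by
          rw [Real.exp_neg, Real.exp_nat_mul, Real.exp_log two_pos, inv_pow], ← Real.exp_add]
        congr 1
        rw [add_assoc]
        congr 1
        simp only [H, cen, Finset.sum_sub_distrib, Finset.sum_const, Finset.card_univ,
          Fintype.card_fin, nsmul_eq_mul]
        rw [add_comm, ← sub_eq_iff_eq_add]
        simp only [m₀, sub_left_inj]
        refine Finset.sum_congr rfl fun a _ => congrArg f ?_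
        simp only [lin, xv, Finset.sum_div]
        exact Finset.sum_congr rfl fun i _ => by ring
      rw [Finset.mul_sum, Finset.sum_congr rfl fun σ _ => hs σ, ← Finset.mul_sum,
        Real.log_mul (Real.exp_ne_zero _)
          (Finset.sum_pos (fun σ _ => Real.exp_pos _) Finset.univ_nonempty).ne', Real.log_exp]
    change (∫ g, Real.log (∫ x, Real.exp (∑ a, f ((∑ i, g a i * x i) / Real.sqrt N))
      ∂isingMeasure N) ∂P) = _
    simp only [e]
    rw [integral_add (integrable_const _) i1]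
    simp [L]
  have hNr : (0 : ℝ) < N := Nat.cast_pos.2 hN
  have hsq : Real.sqrt ((M : ℝ) / N) * (emax A / Real.sqrt N) = Real.sqrt M * emax A / N := by
    rw [Real.sqrt_div (Nat.cast_nonneg M), div_mul_div_comm, Real.mul_self_sqrt hNr.le]
  rw [hsq, show pressure α f N (isingMeasure N) - (M : ℝ) / N * m₀ - Real.sqrt M * emax A / N
    = (-(N * Real.log 2) + (L - X / s) + (X / s - Real.sqrt M * emax A)) / N by
      rw [eq_div_iff hNr.ne', sub_mul, sub_mul, hp, div_mul_cancel₀ _ hNr.ne',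
        div_mul_eq_mul_div, div_mul_cancel₀ _ hNr.ne']
      ring,
    abs_div, abs_of_pos hNr, div_le_iff₀ hNr]
  refine (abs_add_three _ _ _).trans ?_
  rw [abs_neg, abs_of_nonneg (mul_nonneg hNr.le (Real.log_nonneg (by norm_num : (1 : ℝ) ≤ 2)))]
  calc (N : ℝ) * Real.log 2 + |L - X / s| + |X / s - Real.sqrt M * emax A|
      ≤ N * Real.log 2 + N * Real.log 2 * (1 + 1 / s)
        + (N * Real.log 2 / s + M * (60 * s ^ 2 * kapB B)) := by linarith
    _ = (Real.log 2 * (2 + 2 / s) + 60 * kapB B * ((M : ℝ) / N) * s ^ 2) * N := by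
      field_simp
      ring

/-- The error constant. -/
noncomputable def errK (B : ℝ) : ℝ := 4 * Real.log 2 + 60 * kapB B

/-- The two-term expansion. -/
lemma pressure_high {N : ℕ} (hN : 0 < N) {f : ℝ → ℝ} {B : ℝ} (hf : Measurable f)
    (hb : ∀ x, |f x| ≤ B) {m : ℕ} (A : (Fin N → Bool) → Fin m → ℝ)
    (hA : ∀ σ τ, ∑ i, A σ i * A τ i = covKer f σ τ) {α : ℝ} (hα : 1 ≤ α) :
    |pressure α f N (isingMeasure N) - (⌊α * N⌋₊ : ℝ) / N * (∫ z, f z ∂gaussianReal 0 1)
        - Real.sqrt ((⌊α * N⌋₊ : ℝ) / N) * (emax A / Real.sqrt N)|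
      ≤ errK B * α ^ (1 / 3 : ℝ) := by
  set β := α ^ (1 / 3 : ℝ) with hβd
  have hβ : 1 ≤ β := Real.one_le_rpow hα (by norm_num)
  have hβ3 : β ^ 3 = α := by
    rw [hβd, ← Real.rpow_natCast, ← Real.rpow_mul (by linarith)]; norm_num
  refine (pressure_expand hN hf hb A hA (s := 1 / β) (by positivity)
    ((div_le_one (by linarith)).2 hβ)).trans ?_
  have hρ : (⌊α * N⌋₊ : ℝ) / N ≤ α := by
    rw [div_le_iff₀ (Nat.cast_pos.2 hN)]
    exact Nat.floor_le (mul_nonneg (by linarith) (Nat.cast_nonneg N))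
  have hk := kapB_nonneg B
  have h1 : 60 * kapB B * ((⌊α * N⌋₊ : ℝ) / N) * (1 / β) ^ 2 ≤ 60 * kapB B * β := by
    calc _ ≤ 60 * kapB B * α * (1 / β) ^ 2 := by gcongr
      _ = _ := by rw [← hβ3]; field_simp
  have h2 : Real.log 2 * (2 + 2 / (1 / β)) ≤ 4 * Real.log 2 * β := by
    rw [div_div_eq_mul_div, div_one]
    nlinarith [Real.log_nonneg (by norm_num : (1 : ℝ) ≤ 2)]
  unfold errK
  linarith

end Vale.Agent.P157.High
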