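import Vale.Agent.P157.High.Asymp
import Mathlib.Analysis.Normed.Lp.SmoothApprox
import Mathlib.Analysis.Convex.Deriv

/-!
For an even potential the covariance is a convex function of the overlap.
-/

open MeasureTheory ProbabilityTheory Set
open scoped BigOperators ContDiff

namespace Vale.Agent.P157.High

open Rsb

lemma sqMean_smooth {h h₁ h₂ h₃ : ℝ → ℝ} (S : Sm h h₁ h₂) (S₁ : Sm h₁ h₂ h₃) :
    ConvexOn ℝ (Icc 0 1) (sqMean h) ∧ MonotoneOn (sqMean h) (Icc 0 1) := by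
  have hm1 : MonotoneOn (sqMean h₁) (Icc 0 1) := by
    refine monotoneOn_of_hasDerivWithinAt_nonneg (f' := sqMean h₂) (convex_Icc _ _)
      S₁.continuous_sqMean.continuousOn (fun t ht => ?_) fun t _ => sqMean_nonneg _ _
    rw [interior_Icc] at ht
    exact (S₁.deriv_sqMean ht).hasDerivWithinAt
  refine ⟨MonotoneOn.convexOn_of_deriv (convex_Icc _ _) S.continuous_sqMean.continuousOn ?_ ?_,
    monotoneOn_of_hasDerivWithinAt_nonneg (f' := sqMean h₁) (convex_Icc _ _)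
      S.continuous_sqMean.continuousOn (fun t ht => ?_) fun t _ => sqMean_nonneg _ _⟩
  · rw [interior_Icc]
    exact fun t ht => (S.deriv_sqMean ht).differentiableAt.differentiableWithinAt
  · rw [interior_Icc]
    intro u hu v hv huv
    rw [(S.deriv_sqMean hu).deriv, (S.deriv_sqMean hv).deriv]
    exact hm1 (Ioo_subset_Icc_self hu) (Ioo_subset_Icc_self hv) huv
  · rw [interior_Icc] at ht
    exact (S.deriv_sqMean ht).hasDerivWithinAt

lemma sqMean_close {h g : ℝ → ℝ} (hm : Measurable h) (gm : Measurable g) {C : ℝ}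
    (hb : ∀ x, |h x| ≤ C) (gb : ∀ x, |g x| ≤ C) {ε : ℝ} (hε : 0 < ε)
    (hd : ∫ z, (h z - g z) ^ 2 ∂gaussianReal 0 1 ≤ ε ^ 2) {t : ℝ} (ht : t ∈ Icc (0 : ℝ) 1) :
    |sqMean h t - sqMean g t|
      ≤ ε / 2 * (1 + 8 * (∫ z, h z ^ 2 ∂gaussianReal 0 1) + 2 * ε ^ 2) := by
  have hC : 0 ≤ C := (abs_nonneg _).trans (hb 0)
  set D : ℝ → ℝ := fun x => h x - g x
  set E : ℝ → ℝ := fun x => h x + g x
  have bD : ∀ x, |D x| ≤ 2 * C := fun x => (abs_sub _ _).trans (by linarith [hb x, gb x])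
  have bE : ∀ x, |E x| ≤ 2 * C := fun x => (abs_add_le _ _).trans (by linarith [hb x, gb x])
  have hlD : ∀ y, hs D t y = hs h t y - hs g t y := fun y =>
    integral_sub (bdd_int (hm.comp (by fun_prop)) fun w => hb _)
      (bdd_int (gm.comp (by fun_prop)) fun w => gb _)
  have hlE : ∀ y, hs E t y = hs h t y + hs g t y := fun y =>
    integral_add (bdd_int (hm.comp (by fun_prop)) fun w => hb _)
      (bdd_int (gm.comp (by fun_prop)) fun w => gb _)
  have iS : ∀ {u : ℝ → ℝ} {K : ℝ}, Measurable u → (∀ x, |u x| ≤ K) →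
      Integrable (fun z => hs u t (Real.sqrt t * z) ^ 2) (gaussianReal 0 1) := fun {u K} um ub =>
    bdd_int (((measurable_hs um t).comp (by fun_prop)).pow_const 2) (C := K ^ 2) fun z => by
      rw [abs_pow]; exact pow_le_pow_left₀ (abs_nonneg _) (abs_hs_le ub _ _) 2
  have hsq : ∫ z, E z ^ 2 ∂gaussianReal 0 1
      ≤ 8 * (∫ z, h z ^ 2 ∂gaussianReal 0 1) + 2 * ∫ z, D z ^ 2 ∂gaussianReal 0 1 := by
    have i1 : Integrable (fun z => h z ^ 2) (gaussianReal 0 1) :=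
      bdd_int (hm.pow_const 2) (C := C ^ 2) fun z => by
        rw [abs_pow]; exact pow_le_pow_left₀ (abs_nonneg _) (hb z) 2
    have i2 : Integrable (fun z => D z ^ 2) (gaussianReal 0 1) :=
      bdd_int ((hm.sub gm).pow_const 2) (C := (2 * C) ^ 2) fun z => by
        rw [abs_pow]; exact pow_le_pow_left₀ (abs_nonneg _) (bD z) 2
    have i3 : Integrable (fun z => E z ^ 2) (gaussianReal 0 1) :=
      bdd_int ((hm.add gm).pow_const 2) (C := (2 * C) ^ 2) fun z => by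
        rw [abs_pow]; exact pow_le_pow_left₀ (abs_nonneg _) (bE z) 2
    refine (integral_mono i3 ((i1.const_mul 8).add (i2.const_mul 2)) fun z => ?_).trans (le_of_eq ?_)
    · simp only [D, E, Pi.add_apply]; nlinarith [sq_nonneg (2 * h z - (h z - g z) * (-1))]
    · rw [integral_add' (i1.const_mul 8) (i2.const_mul 2), integral_const_mul, integral_const_mul]
  have sD := sqMean_le (h := D) (hm.sub gm) bD ht
  have sE := sqMean_le (h := E) (hm.add gm) bE ht
  simp only [sqMean] at sD sE ⊢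
  rw [← integral_sub (iS hm hb) (iS gm gb)]
  refine abs_integral_le_integral_abs.trans ((integral_mono ((iS hm hb).sub (iS gm gb)).abs
    (((iS (u := D) (hm.sub gm) bD).const_mul (1 / (2 * ε))).add ((iS (u := E) (hm.add gm) bE).const_mul (ε / 2)))
    fun z => ?_).trans ?_)
  · simp only [Pi.add_apply, Pi.sub_apply]
    rw [show hs h t (Real.sqrt t * z) ^ 2 - hs g t (Real.sqrt t * z) ^ 2
      = hs D t (Real.sqrt t * z) * hs E t (Real.sqrt t * z) by rw [hlD, hlE]; ring, abs_mul]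
    set u := hs D t (Real.sqrt t * z)
    set v := hs E t (Real.sqrt t * z)
    have he : (|u| * |v|) * (2 * ε) ≤ (1 / (2 * ε) * u ^ 2 + ε / 2 * v ^ 2) * (2 * ε) := by
      have : (1 / (2 * ε) * u ^ 2 + ε / 2 * v ^ 2) * (2 * ε) = |u| ^ 2 + (ε * |v|) ^ 2 := by
        rw [mul_pow, sq_abs, sq_abs]; field_simp
      rw [this]
      nlinarith [sq_nonneg (|u| - ε * |v|)]
    exact le_of_mul_le_mul_right he (by positivity)
  · rw [integral_add' ((iS (u := D) (hm.sub gm) bD).const_mul _) ((iS (u := E) (hm.add gm) bE).const_mul _),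
      integral_const_mul, integral_const_mul]
    have a1 : 1 / (2 * ε) * (∫ z, hs D t (Real.sqrt t * z) ^ 2 ∂gaussianReal 0 1) ≤ ε / 2 := by
      refine (mul_le_mul_of_nonneg_left (sD.trans hd) (by positivity)).trans (le_of_eq ?_)
      field_simp
    have a2 : ε / 2 * (∫ z, hs E t (Real.sqrt t * z) ^ 2 ∂gaussianReal 0 1)
        ≤ ε / 2 * (8 * (∫ z, h z ^ 2 ∂gaussianReal 0 1) + 2 * ε ^ 2) :=
      mul_le_mul_of_nonneg_left (sE.trans (hsq.trans (by linarith [hd]))) (by positivity)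
    linarith

/-- An even bounded function is approximated in mean square by smooth even functions. -/
lemma exists_smooth {h : ℝ → ℝ} (hm : Measurable h) {C : ℝ} (hb : ∀ x, |h x| ≤ C)
    (he : ∀ x, h (-x) = h x) {ε : ℝ} (hε : 0 < ε) :
    ∃ g g₁ g₂ g₃ : ℝ → ℝ, Sm g g₁ g₂ ∧ Sm g₁ g₂ g₃ ∧
      ∫ z, (h z - g z) ^ 2 ∂gaussianReal 0 1 ≤ ε ^ 2 := by
  set μ := gaussianReal 0 1
  have hL : MemLp h 2 μ := MemLp.of_bound hm.aestronglyMeasurable C (ae_of_all _ hb)
  obtain ⟨k, hk, hks, hkd⟩ := hL.exist_eLpNorm_sub_le (by norm_num) (by norm_num) hε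
  have hk4 : ∀ x, HasDerivAt k (deriv k x) x := fun x =>
    (hks.differentiable (by norm_num) x).hasDerivAt
  have hkd1 : ContDiff ℝ ∞ (deriv k) := (contDiff_infty_iff_deriv.1 hks).2
  have hkd2 : ContDiff ℝ ∞ (deriv (deriv k)) := (contDiff_infty_iff_deriv.1 hkd1).2
  have hkd3 : ContDiff ℝ ∞ (deriv (deriv (deriv k))) := (contDiff_infty_iff_deriv.1 hkd2).2
  obtain ⟨C0, hC0⟩ := hk.exists_bound_of_continuous hks.continuous
  obtain ⟨C1, hC1⟩ := hk.deriv.exists_bound_of_continuous hkd1.continuous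
  obtain ⟨C2, hC2⟩ := hk.deriv.deriv.exists_bound_of_continuous hkd2.continuous
  obtain ⟨C3, hC3⟩ := hk.deriv.deriv.deriv.exists_bound_of_continuous hkd3.continuous
  simp only [Real.norm_eq_abs] at hC0 hC1 hC2 hC3
  have n0 := (abs_nonneg _).trans (hC0 0)
  have n1 := (abs_nonneg _).trans (hC1 0)
  have n2 := (abs_nonneg _).trans (hC2 0)
  have n3 := (abs_nonneg _).trans (hC3 0)
  set g : ℝ → ℝ := fun x => (k x + k (-x)) / 2
  set g₁ : ℝ → ℝ := fun x => (deriv k x - deriv k (-x)) / 2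
  set g₂ : ℝ → ℝ := fun x => (deriv (deriv k) x + deriv (deriv k) (-x)) / 2
  set g₃ : ℝ → ℝ := fun x => (deriv (deriv (deriv k)) x - deriv (deriv (deriv k)) (-x)) / 2
  have hneg : ∀ (u u' : ℝ → ℝ), (∀ x, HasDerivAt u (u' x) x) →
      ∀ x, HasDerivAt (fun x => u (-x)) (u' (-x) * -1) x :=
    fun u u' hu x => (hu (-x)).comp x (hasDerivAt_neg x)
  have d0 : ∀ x, HasDerivAt g (g₁ x) x := fun x => by
    refine (((hk4 x).add (hneg _ _ hk4 x)).div_const 2).congr_deriv ?_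
    simp only [g₁]; ring
  have hd1' : ∀ x, HasDerivAt (deriv k) (deriv (deriv k) x) x := fun x =>
    (hkd1.differentiable (by norm_num) x).hasDerivAt
  have hd2' : ∀ x, HasDerivAt (deriv (deriv k)) (deriv (deriv (deriv k)) x) x := fun x =>
    (hkd2.differentiable (by norm_num) x).hasDerivAt
  have d1 : ∀ x, HasDerivAt g₁ (g₂ x) x := fun x => by
    refine (((hd1' x).sub (hneg _ _ hd1' x)).div_const 2).congr_deriv ?_
    simp only [g₂]; ring
  have d2 : ∀ x, HasDerivAt g₂ (g₃ x) x := fun x => by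
    refine (((hd2' x).add (hneg _ _ hd2' x)).div_const 2).congr_deriv ?_
    simp only [g₃]; ring
  have hhalf : ∀ {a b K : ℝ}, |a| ≤ K → |b| ≤ K → |(a + b) / 2| ≤ K := fun {a b K} ha hb' => by
    rw [abs_div, abs_two]; linarith [abs_add_le a b]
  have hhalf' : ∀ {a b K : ℝ}, |a| ≤ K → |b| ≤ K → |(a - b) / 2| ≤ K := fun {a b K} ha hb' => by
    rw [abs_div, abs_two]; linarith [abs_sub a b]
  have bg : ∀ x, |g x| ≤ C0 + C1 + C2 + C3 := fun x =>
    (hhalf (hC0 x) (hC0 (-x))).trans (by linarith)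
  have bg1 : ∀ x, |g₁ x| ≤ C0 + C1 + C2 + C3 := fun x =>
    (hhalf' (hC1 x) (hC1 (-x))).trans (by linarith)
  have bg2 : ∀ x, |g₂ x| ≤ C0 + C1 + C2 + C3 := fun x =>
    (hhalf (hC2 x) (hC2 (-x))).trans (by linarith)
  have bg3 : ∀ x, |g₃ x| ≤ C0 + C1 + C2 + C3 := fun x =>
    (hhalf' (hC3 x) (hC3 (-x))).trans (by linarith)
  refine ⟨g, g₁, g₂, g₃, ⟨d0, d1, _, fun x => ⟨bg x, bg1 x, bg2 x⟩⟩,
    ⟨d1, d2, _, fun x => ⟨bg1 x, bg2 x, bg3 x⟩⟩, ?_⟩
  have hkm : Measurable k := hks.continuous.measurable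
  have bd : ∀ x, |h x - k x| ≤ C + C0 := fun x => (abs_sub _ _).trans (add_le_add (hb x) (hC0 x))
  have i1 : Integrable (fun z => (h z - k z) ^ 2) μ :=
    bdd_int ((hm.sub hkm).pow_const 2) (C := (C + C0) ^ 2) fun z => by
      rw [abs_pow]; exact pow_le_pow_left₀ (abs_nonneg _) (bd z) 2
  have i2 : Integrable (fun z => (h z - k (-z)) ^ 2) μ :=
    bdd_int ((hm.sub (hkm.comp measurable_neg)).pow_const 2) (C := (C + C0) ^ 2) fun z => by
      rw [abs_pow]
      exact pow_le_pow_left₀ (abs_nonneg _) ((abs_sub _ _).trans (add_le_add (hb z) (hC0 _))) 2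
  have hk2 : ∫ z, (h z - k z) ^ 2 ∂μ ≤ ε ^ 2 := by
    have hM : MemLp (h - k) 2 μ := MemLp.of_bound (hm.sub hkm).aestronglyMeasurable (C + C0)
      (ae_of_all _ bd)
    rw [hM.eLpNorm_eq_integral_rpow_norm (by norm_num) (by norm_num),
      ENNReal.ofReal_le_ofReal_iff hε.le] at hkd
    norm_num at hkd
    have hnn : 0 ≤ ∫ z, (h z - k z) ^ 2 ∂μ := integral_nonneg fun _ => sq_nonneg _
    rw [← Real.sqrt_eq_rpow] at hkd
    exact (Real.sqrt_le_iff.1 hkd).2
  have hrefl : ∫ z, (h z - k (-z)) ^ 2 ∂μ = ∫ z, (h z - k z) ^ 2 ∂μ := by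
    have := integral_map (μ := μ) (φ := fun z : ℝ => -z) (f := fun z => (h z - k z) ^ 2)
      (by fun_prop) ((hm.sub hkm).pow_const 2).aestronglyMeasurable
    simp only [μ, gaussianReal_map_neg, neg_zero] at this
    rw [this]
    simp only [he]
    rfl
  have hgm : Measurable g := (hkm.add (hkm.comp measurable_neg)).div_const 2
  refine (integral_mono (bdd_int ((hm.sub hgm).pow_const 2) (C := (C + (C0 + C1 + C2 + C3)) ^ 2)
    fun z => by
      rw [abs_pow]
      exact pow_le_pow_left₀ (abs_nonneg _) ((abs_sub _ _).trans (add_le_add (hb z) (bg z))) 2)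
    ((i1.add i2).div_const 2) fun z => ?_).trans ?_
  · simp only [g, Pi.add_apply, Pi.sub_apply]
    nlinarith [sq_nonneg (k z - k (-z))]
  · rw [integral_div, integral_add' i1 i2, hrefl]
    linarith

/-- Convexity of `R ↦ sqMean h |R|` on `[-1, 1]`. -/
lemma sqMean_abs_convex {h : ℝ → ℝ} (hm : Measurable h) {C : ℝ} (hb : ∀ x, |h x| ≤ C)
    (he : ∀ x, h (-x) = h x) {a b R₁ R₂ : ℝ} (ha : 0 ≤ a) (hb' : 0 ≤ b) (hab : a + b = 1)
    (h1 : |R₁| ≤ 1) (h2 : |R₂| ≤ 1) :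
    sqMean h |a * R₁ + b * R₂| ≤ a * sqMean h |R₁| + b * sqMean h |R₂| := by
  have hR : |a * R₁ + b * R₂| ≤ a * |R₁| + b * |R₂| := by
    refine (abs_add_le _ _).trans (le_of_eq ?_)
    rw [abs_mul, abs_mul, abs_of_nonneg ha, abs_of_nonneg hb']
  have hle : a * |R₁| + b * |R₂| ≤ 1 := by nlinarith
  refine le_of_forall_pos_le_add fun δ hδ => ?_
  set J := ∫ z, h z ^ 2 ∂gaussianReal 0 1
  have hJ : 0 ≤ J := integral_nonneg fun _ => sq_nonneg _
  set ε := min 1 (δ / (3 + 8 * J))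
  have hε : 0 < ε := lt_min one_pos (by positivity)
  obtain ⟨g, g₁, g₂, g₃, S, S₁, hd⟩ := exists_smooth hm hb he hε
  obtain ⟨D, hD⟩ := S.bdd
  obtain ⟨hconv, hmono⟩ := sqMean_smooth S S₁
  have hclose : ∀ R : ℝ, |R| ≤ 1 → |sqMean h (|R|) - sqMean g (|R|)| ≤ δ / 2 := fun R hR' => by
    refine (sqMean_close hm S.cont.measurable (C := max C D) (fun x => (hb x).trans (le_max_left _ _))
      (fun x => (hD x).1.trans (le_max_right _ _)) hε hd ⟨abs_nonneg R, hR'⟩).trans ?_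
    have e1 : ε ≤ 1 := min_le_left _ _
    have e2 : ε ≤ δ / (3 + 8 * J) := min_le_right _ _
    rw [le_div_iff₀ (by positivity)] at e2
    have : ε ^ 2 ≤ 1 := by nlinarith
    have : ε / 2 * (1 + 8 * J + 2 * ε ^ 2) ≤ ε / 2 * (3 + 8 * J) :=
      mul_le_mul_of_nonneg_left (by linarith) (by linarith)
    linarith
  obtain ⟨c0, -⟩ := abs_le.1 (hclose _ (hR.trans hle))
  obtain ⟨-, c0'⟩ := abs_le.1 (hclose _ (hR.trans hle))
  obtain ⟨c1, -⟩ := abs_le.1 (hclose _ h1)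
  obtain ⟨c2, -⟩ := abs_le.1 (hclose _ h2)
  have m1 := hmono ⟨abs_nonneg _, hR.trans hle⟩
    ⟨by positivity, hle⟩ hR
  have m2 := hconv.2 ⟨abs_nonneg R₁, h1⟩ ⟨abs_nonneg R₂, h2⟩ ha hb' hab
  simp only [smul_eq_mul] at m2
  nlinarith

lemma covKer_even {N : ℕ} (hN : 0 < N) {f : ℝ → ℝ} {B : ℝ} (hf : Measurable f)
    (hb : ∀ x, |f x| ≤ B) (he : ∀ x, f (-x) = f x) (σ τ : Fin N → Bool) :
    covKer f σ τ = sqMean (cen f) |∑ i, xv σ i * xv τ i| := by
  have hx := xv_unit hN σ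
  have hy := xv_unit hN τ
  have hm := measurable_cen hf
  rw [covKer_eq]
  rcases le_total 0 (∑ i, xv σ i * xv τ i) with h0 | h0
  · rw [abs_of_nonneg h0]
    exact cov_eq (xv σ) (xv τ) hx hy h0 hm (cen_bdd hb)
  · have hy' : ∑ i, (-xv τ i) ^ 2 = 1 := by simpa using hy
    have h0' : 0 ≤ ∑ i, xv σ i * -xv τ i := by simpa using h0
    have hc := cov_eq (xv σ) (fun i => -xv τ i) hx hy' h0' hm (cen_bdd hb)
    have e : ∀ g : Fin N → ℝ, cen f (∑ i, g i * -xv τ i) = cen f (lin g τ) := fun g => by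
      simp [cen, lin, he]
    simp only [e] at hc
    change ∫ g, cen f (∑ i, g i * xv σ i) * cen f (lin g τ) ∂gaussVec (Fin N) = _
    rw [hc, abs_of_nonpos h0]
    simp

end Vale.Agent.P157.High
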