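import Mathlib.Probability.Distributions.Gaussian.Real

/-!
The covariance of the Gaussian process attached to a potential on the cube.
-/

open MeasureTheory ProbabilityTheory

namespace Vale.Agent.P157

/-- The field `g · x / √N` of a pattern at the configuration of a Boolean vector. -/
noncomputable def cubeField {N : ℕ} (g : Fin N → ℝ) (σ : Fin N → Bool) : ℝ :=
  ∑ i, g i * ((if σ i then (1 : ℝ) else -1) / Real.sqrt N)

/-- `E (f(X) - E f)(f(Y) - E f)` at the fields of two configurations. -/
noncomputable def covKer (f : ℝ → ℝ) {N : ℕ} (σ τ : Fin N → Bool) : ℝ :=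
  ∫ g, (f (cubeField g σ) - ∫ z, f z ∂gaussianReal 0 1)
      * (f (cubeField g τ) - ∫ z, f z ∂gaussianReal 0 1)
    ∂Measure.pi fun _ : Fin N => gaussianReal 0 1

/-- `G` is the ground state energy per spin of the centred Gaussian process with covariance
`N * covKer`, realised by some factor `A` of the covariance matrix. -/
def IsGroundEnergy (f : ℝ → ℝ) (N : ℕ) (G : ℝ) : Prop :=
  ∃ (m : ℕ) (A : (Fin N → Bool) → Fin m → ℝ),
    (∀ σ τ, ∑ i, A σ i * A τ i = covKer f σ τ) ∧
    G = (∫ z, Finset.univ.sup' Finset.univ_nonempty (fun σ => ∑ i, z i * A σ i)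
      ∂Measure.pi fun _ : Fin m => gaussianReal 0 1) / Real.sqrt N

end Vale.Agent.P157
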