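import Vale.Agent.P157.Rsb.Step
import Vale.Agent.P157.Rsb.Cube

/-!
Second order expansion of the average log-partition increment, and comparison of sums of small
increments.
-/

open MeasureTheory ProbabilityTheory
open scoped BigOperators

namespace Vale.Agent.P157.High

open Rsb

lemma log_two_term {y t : ℝ} (hy : -1 < y) (ht : t ≤ Real.log (1 + y)) :
    |Real.log (1 + y) - y + y ^ 2 / 2| ≤ 20 * |y| ^ 3 + |t| ^ 3 := by
  have h3 : 0 ≤ |t| ^ 3 := pow_nonneg (abs_nonneg t) 3
  have hy3 : 0 ≤ |y| ^ 3 := pow_nonneg (abs_nonneg y) 3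
  by_cases hy2 : |y| ≤ 1 / 2
  · have hb := Real.abs_log_sub_add_sum_range_le (x := -y) (by rw [abs_neg]; linarith) 2
    simp only [Finset.sum_range_succ, Finset.sum_range_zero, abs_neg, sub_neg_eq_add] at hb
    norm_num at hb
    have h1 : |Real.log (1 + y) - y + y ^ 2 / 2| ≤ |y| ^ 3 / (1 - |y|) := by
      refine le_trans (le_of_eq ?_) hb
      congr 1; ring
    refine h1.trans ?_
    rw [div_le_iff₀ (by linarith)]
    nlinarith
  · push Not at hy2
    have h2 : 1 / 4 ≤ |y| ^ 2 := by nlinarith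
    have h8 : 1 / 8 ≤ |y| ^ 3 := by
      nlinarith [mul_le_mul hy2.le h2 (by norm_num) (abs_nonneg y)]
    have hlog : |Real.log (1 + y)| ≤ |y| + |t| := by
      rw [abs_le]
      constructor
      · linarith [neg_abs_le t, abs_nonneg y]
      · linarith [Real.log_le_sub_one_of_pos (by linarith : 0 < 1 + y), le_abs_self y,
          abs_nonneg t]
    have ht1 : |t| ≤ 1 + |t| ^ 3 := by
      rcases le_total |t| 1 with h | h
      · linarith
      · linarith [le_self_pow₀ h (by norm_num : (3 : ℕ) ≠ 0)]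
    have hy1 : |y| ≤ 4 * |y| ^ 3 := by nlinarith [abs_nonneg y]
    have hys : y ^ 2 ≤ 2 * |y| ^ 3 := by
      rw [← sq_abs y]; nlinarith [sq_nonneg |y|]
    calc |Real.log (1 + y) - y + y ^ 2 / 2|
        ≤ |Real.log (1 + y) - y| + |y ^ 2 / 2| := abs_add_le _ _
      _ ≤ (|Real.log (1 + y)| + |y|) + y ^ 2 / 2 :=
          add_le_add (abs_sub _ _) (abs_of_nonneg (by positivity)).le
      _ ≤ _ := by linarith

lemma exp_one_term (x : ℝ) : |Real.exp x - 1 - x| ≤ |x| ^ 2 * Real.exp |x| := by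
  have h := Complex.norm_exp_sub_sum_le_norm_mul_exp (x : ℂ) 2
  simp only [Finset.sum_range_succ, Finset.sum_range_zero, Nat.factorial, zero_add, pow_zero,
    pow_one, Complex.norm_real, Real.norm_eq_abs] at h
  norm_num at h
  rw [← Complex.ofReal_exp, show (Real.exp x : ℂ) - (1 + x)
      = ((Real.exp x - 1 - x : ℝ) : ℂ) by push_cast; ring,
    Complex.norm_real, Real.norm_eq_abs] at h
  simpa [sq_abs] using h

variable {S : Type*} [Fintype S]

lemma log_pointwise {p V : S → ℝ} (hp : ∀ σ, 0 ≤ p σ) (hp1 : ∑ σ, p σ = 1) {s : ℝ} (hs0 : 0 < s)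
    (hs1 : s ≤ 1) :
    |Real.log (∑ σ, p σ * Real.exp (s * V σ))
        - (s * ∑ σ, p σ * V σ + s ^ 2 / 2 * ∑ σ, p σ * V σ ^ 2
          - s ^ 2 / 2 * (∑ σ, p σ * V σ) ^ 2)|
      ≤ 30 * s ^ 3 * ∑ σ, p σ * wK (V σ) := by
  set Y := ∑ σ, p σ * Real.exp (s * V σ)
  set a := ∑ σ, p σ * V σ
  set b := ∑ σ, p σ * V σ ^ 2
  set K := ∑ σ, p σ * wK (V σ)
  set y := Y - 1
  have hK : ∀ (j : ℕ) (c : ℝ), j ≤ 6 → c ≤ 4 →
      ∑ σ, p σ * (|V σ| ^ j * Real.exp (c * |V σ|)) ≤ K := fun j c hj hc =>
    Finset.sum_le_sum fun σ _ => mul_le_mul_of_nonneg_left (pow_mul_exp_le_wK _ hj hc) (hp σ)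
  have hs3 : 0 ≤ s ^ 3 := by positivity
  have hsa : Real.exp (s * a) ≤ Y := by
    have := convexOn_exp.map_sum_le (t := Finset.univ) (w := p) (p := fun σ => s * V σ)
      (fun σ _ => hp σ) hp1 fun σ _ => Set.mem_univ _
    simp only [smul_eq_mul] at this
    calc Real.exp (s * a) = Real.exp (∑ σ, p σ * (s * V σ)) := by
          simp only [a, Finset.mul_sum]
          exact congrArg _ (Finset.sum_congr rfl fun σ _ => by ring)
      _ ≤ Y := this
  have hY0 : 0 < Y := (Real.exp_pos _).trans_le hsa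
  have hlog : s * a ≤ Real.log Y := by simpa using Real.log_le_log (Real.exp_pos _) hsa
  have hyd : y = ∑ σ, p σ * (Real.exp (s * V σ) - 1) := by
    simp [y, Y, mul_sub, Finset.sum_sub_distrib, hp1]
  have hsV : ∀ σ, |s * V σ| = s * |V σ| := fun σ => by rw [abs_mul, abs_of_pos hs0]
  have hsV' : ∀ σ, Real.exp (s * |V σ|) ≤ Real.exp |V σ| := fun σ =>
    Real.exp_le_exp.2 (mul_le_of_le_one_left (abs_nonneg _) hs1)
  set A := ∑ σ, p σ * (|V σ| * Real.exp |V σ|)
  set B := ∑ σ, p σ * (|V σ| ^ 2 * Real.exp |V σ|)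
  have hy1 : |y| ≤ s * A := by
    rw [hyd, Finset.mul_sum]
    refine (Finset.abs_sum_le_sum_abs _ _).trans (Finset.sum_le_sum fun σ _ => ?_)
    rw [abs_mul, abs_of_nonneg (hp σ), mul_left_comm s]
    refine mul_le_mul_of_nonneg_left ((exp_sub_one_abs _).trans ?_) (hp σ)
    rw [hsV, mul_assoc]
    exact mul_le_mul_of_nonneg_left
      (mul_le_mul_of_nonneg_left (hsV' σ) (abs_nonneg _)) hs0.le
  have hA3 : A ^ 3 ≤ K := (mean_pow_le hp hp1 (fun σ => by positivity) 3).trans
    (le_of_eq_of_le (Finset.sum_congr rfl fun σ _ => by rw [mul_pow, ← Real.exp_nat_mul]; norm_num)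
      (hK 3 3 (by norm_num) (by norm_num)))
  have hy3 : |y| ^ 3 ≤ s ^ 3 * K := (pow_le_pow_left₀ (abs_nonneg _) hy1 3).trans
    ((mul_pow s A 3).le.trans (mul_le_mul_of_nonneg_left hA3 hs3))
  have haA : |a| ≤ A := (Finset.abs_sum_le_sum_abs _ _).trans (Finset.sum_le_sum fun σ _ => by
    rw [abs_mul, abs_of_nonneg (hp σ)]
    exact mul_le_mul_of_nonneg_left
      (le_mul_of_one_le_right (abs_nonneg _) (Real.one_le_exp (abs_nonneg _))) (hp σ))
  have ht3 : |s * a| ^ 3 ≤ s ^ 3 * K := by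
    rw [abs_mul, abs_of_pos hs0, mul_pow]
    exact mul_le_mul_of_nonneg_left ((pow_le_pow_left₀ (abs_nonneg _) haA 3).trans hA3) hs3
  have hlin : |y - s * a - s ^ 2 / 2 * b| ≤ s ^ 3 * K := by
    have he : y - s * a - s ^ 2 / 2 * b
        = ∑ σ, p σ * (Real.exp (s * V σ) - 1 - s * V σ - (s * V σ) ^ 2 / 2) := by
      simp only [hyd, a, b, Finset.mul_sum, ← Finset.sum_sub_distrib]
      exact Finset.sum_congr rfl fun σ _ => by ring
    rw [he]
    refine (Finset.abs_sum_le_sum_abs _ _).trans ?_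
    refine le_trans ?_ (mul_le_mul_of_nonneg_left (hK 3 1 (by norm_num) (by norm_num)) hs3)
    rw [Finset.mul_sum]
    refine Finset.sum_le_sum fun σ _ => ?_
    rw [abs_mul, abs_of_nonneg (hp σ)]
    refine (mul_le_mul_of_nonneg_left (exp_two_term _) (hp σ)).trans ?_
    rw [hsV, mul_pow]
    calc p σ * (s ^ 3 * |V σ| ^ 3 * Real.exp (s * |V σ|))
        ≤ p σ * (s ^ 3 * |V σ| ^ 3 * Real.exp |V σ|) :=
          mul_le_mul_of_nonneg_left (mul_le_mul_of_nonneg_left (hsV' σ) (by positivity)) (hp σ)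
      _ = _ := by rw [one_mul]; ring
  have hquad : |y ^ 2 - s ^ 2 * a ^ 2| ≤ 2 * s ^ 3 * K := by
    have hρ : |y - s * a| ≤ s ^ 2 * B := by
      have he : y - s * a = ∑ σ, p σ * (Real.exp (s * V σ) - 1 - s * V σ) := by
        simp only [hyd, a, Finset.mul_sum, ← Finset.sum_sub_distrib]
        exact Finset.sum_congr rfl fun σ _ => by ring
      rw [he, Finset.mul_sum]
      refine (Finset.abs_sum_le_sum_abs _ _).trans (Finset.sum_le_sum fun σ _ => ?_)
      rw [abs_mul, abs_of_nonneg (hp σ)]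
      refine (mul_le_mul_of_nonneg_left (exp_one_term _) (hp σ)).trans ?_
      rw [hsV, mul_pow]
      calc p σ * (s ^ 2 * |V σ| ^ 2 * Real.exp (s * |V σ|))
          ≤ p σ * (s ^ 2 * |V σ| ^ 2 * Real.exp |V σ|) :=
            mul_le_mul_of_nonneg_left (mul_le_mul_of_nonneg_left (hsV' σ) (by positivity)) (hp σ)
        _ = _ := by ring
    have hys : |y + s * a| ≤ 2 * s * A := by
      refine (abs_add_le _ _).trans ?_
      rw [two_mul, add_mul, abs_mul, abs_of_pos hs0]
      exact add_le_add hy1 (mul_le_mul_of_nonneg_left haA hs0.le)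
    have hA : A ^ 2 ≤ K := (mean_pow_le hp hp1 (fun σ => by positivity) 2).trans
      (le_of_eq_of_le (Finset.sum_congr rfl fun σ _ => by rw [mul_pow, ← Real.exp_nat_mul]; norm_num)
        (hK 2 2 (by norm_num) (by norm_num)))
    have hB : B ^ 2 ≤ K := (mean_pow_le hp hp1 (fun σ => by positivity) 2).trans
      (le_of_eq_of_le (Finset.sum_congr rfl fun σ _ => by
        rw [mul_pow, ← Real.exp_nat_mul, ← pow_mul]; norm_num)
        (hK 4 2 (by norm_num) (by norm_num)))
    rw [show y ^ 2 - s ^ 2 * a ^ 2 = (y + s * a) * (y - s * a) by ring, abs_mul]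
    have hA0 : 0 ≤ A := Finset.sum_nonneg fun σ _ => mul_nonneg (hp σ) (by positivity)
    refine (mul_le_mul hys hρ (abs_nonneg _) (by positivity)).trans ?_
    have hAB : A * B ≤ K := by nlinarith [sq_nonneg (A - B)]
    calc 2 * s * A * (s ^ 2 * B) = 2 * s ^ 3 * (A * B) := by ring
      _ ≤ _ := mul_le_mul_of_nonneg_left hAB (by positivity)
  have hmain := log_two_term (y := y) (t := s * a) (by simp only [y]; linarith)
    (by simpa [y] using hlog)
  rw [show 1 + y = Y by simp [y]] at hmain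
  rw [show Real.log Y - (s * a + s ^ 2 / 2 * b - s ^ 2 / 2 * a ^ 2)
    = (Real.log Y - y + y ^ 2 / 2) + (y - s * a - s ^ 2 / 2 * b)
      + -((y ^ 2 - s ^ 2 * a ^ 2) / 2) by ring]
  refine (abs_add_three _ _ _).trans ?_
  rw [abs_neg, abs_div, abs_two]
  have hK0 : 0 ≤ s ^ 3 * K :=
    mul_nonneg hs3 (Finset.sum_nonneg fun σ _ => mul_nonneg (hp σ) (wK_nonneg _))
  linarith

/-- A centred increment with covariance `c`. -/
structure Inc {Ω : Type*} [MeasurableSpace Ω] (P : Measure Ω) (V : Ω → S → ℝ) (c : S → S → ℝ)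
    (τ κ : ℝ) : Prop where
  meas : ∀ σ, Measurable fun g => V g σ
  int : ∀ σ, Integrable (fun g => V g σ) P
  mean : ∀ σ, ∫ g, V g σ ∂P = 0
  int2 : ∀ σ σ', Integrable (fun g => V g σ * V g σ') P
  cov : ∀ σ σ', ∫ g, V g σ * V g σ' ∂P = c σ σ'
  diag : ∀ σ, c σ σ = τ
  intK : ∀ σ, Integrable (fun g => wK (V g σ)) P
  boundK : ∀ σ, ∫ g, wK (V g σ) ∂P ≤ κ

section Comparison

variable [Nonempty S] {Ω : Type*} [MeasurableSpace Ω] {P : Measure Ω} [IsProbabilityMeasure P]
  {V : Ω → S → ℝ} {c : S → S → ℝ} {τ κ : ℝ}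

lemma abs_log_sum_le (u : S → ℝ) :
    |Real.log (∑ σ, Real.exp (u σ))| ≤ (∑ σ, |u σ|) + Real.log (Fintype.card S) := by
  set L := ∑ σ, |u σ|
  have h : ∀ σ, |u σ| ≤ L := fun σ =>
    Finset.single_le_sum (f := fun τ => |u τ|) (fun τ _ => abs_nonneg _) (Finset.mem_univ σ)
  have hc : (1 : ℝ) ≤ Fintype.card S := by exact_mod_cast Fintype.card_pos
  have hlc : 0 ≤ Real.log (Fintype.card S) := Real.log_nonneg hc
  have hpos : 0 < ∑ σ, Real.exp (u σ) :=
    Finset.sum_pos (fun σ _ => Real.exp_pos _) Finset.univ_nonempty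
  obtain ⟨σ₀⟩ := (inferInstance : Nonempty S)
  rw [abs_le]
  constructor
  · have := Real.log_le_log (Real.exp_pos _)
      (Finset.single_le_sum (f := fun τ => Real.exp (u τ)) (fun τ _ => (Real.exp_pos _).le)
        (Finset.mem_univ σ₀))
    rw [Real.log_exp] at this
    linarith [h σ₀, neg_abs_le (u σ₀)]
  · have := Real.log_le_log hpos ((Finset.sum_le_sum fun σ _ =>
      Real.exp_le_exp.2 ((le_abs_self (u σ)).trans (h σ))).trans_eq (by rw [Finset.sum_const,
        Finset.card_univ, nsmul_eq_mul]))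
    rw [Real.log_mul (by linarith) (Real.exp_ne_zero _), Real.log_exp] at this
    linarith

lemma integrable_log_sum {Y : Type*} [MeasurableSpace Y] {μ : Measure Y} [IsFiniteMeasure μ]
    {u : Y → S → ℝ} (hm : ∀ σ, Measurable fun y => u y σ)
    (hi : ∀ σ, Integrable (fun y => u y σ) μ) :
    Integrable (fun y => Real.log (∑ σ, Real.exp (u y σ))) μ :=
  ((integrable_finsetSum _ fun σ _ => (hi σ).abs).add
    (integrable_const (Real.log (Fintype.card S)))).mono'
    ((Finset.measurable_sum _ fun σ _ => (hm σ).exp).log.aestronglyMeasurable)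
    (ae_of_all _ fun y => abs_log_sum_le (u y))

/-- The expansion of one increment. -/
lemma log_step (H : Inc P V c τ κ) {s : ℝ} (hs0 : 0 < s) (hs1 : s ≤ 1) (b : S → ℝ) :
    |(∫ g, Real.log (∑ σ, Real.exp (b σ + s * V g σ)) ∂P)
      - (Real.log (∑ σ, Real.exp (b σ)) + s ^ 2 / 2 * (τ - ∑ σ, ∑ σ',
          Real.exp (b σ) / (∑ ρ, Real.exp (b ρ)) * (Real.exp (b σ') / (∑ ρ, Real.exp (b ρ)))
            * c σ σ'))| ≤ 30 * s ^ 3 * κ := by
  set W := ∑ σ, Real.exp (b σ)
  have hW : 0 < W := Finset.sum_pos (fun σ _ => Real.exp_pos _) Finset.univ_nonempty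
  set p := fun σ => Real.exp (b σ) / W with hpd
  have hp : ∀ σ, 0 ≤ p σ := fun σ => div_nonneg (Real.exp_pos _).le hW.le
  have hp1 : ∑ σ, p σ = 1 := by simp only [hpd, ← Finset.sum_div]; exact div_self hW.ne'
  change |_ - (Real.log W + s ^ 2 / 2 * (τ - ∑ σ, ∑ σ', p σ * p σ' * c σ σ'))| ≤ _
  set Q : Ω → ℝ := fun g => Real.log W + (s * ∑ σ, p σ * V g σ
    + s ^ 2 / 2 * ∑ σ, p σ * V g σ ^ 2 - s ^ 2 / 2 * (∑ σ, p σ * V g σ) ^ 2) with hQd
  set D : Ω → ℝ := fun g => 30 * s ^ 3 * ∑ σ, p σ * wK (V g σ)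
  have i1 : Integrable (fun g => ∑ σ, p σ * V g σ) P :=
    integrable_finsetSum _ fun σ _ => (H.int σ).const_mul _
  have i2 : Integrable (fun g => ∑ σ, p σ * V g σ ^ 2) P :=
    integrable_finsetSum _ fun σ _ => ((H.int2 σ σ).congr (ae_of_all _ fun g => by ring)).const_mul _
  have e3 : ∀ g, (∑ σ, p σ * V g σ) ^ 2 = ∑ σ, ∑ σ', p σ * p σ' * (V g σ * V g σ') := fun g => by
    rw [sq, Finset.sum_mul_sum]
    exact Finset.sum_congr rfl fun σ _ => Finset.sum_congr rfl fun σ' _ => by ring
  have i3 : Integrable (fun g => (∑ σ, p σ * V g σ) ^ 2) P := by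
    simp_rw [e3]
    exact integrable_finsetSum _ fun σ _ => integrable_finsetSum _ fun σ' _ =>
      (H.int2 σ σ').const_mul _
  have j1 : Integrable (fun g => s * ∑ σ, p σ * V g σ + s ^ 2 / 2 * ∑ σ, p σ * V g σ ^ 2) P :=
    (i1.const_mul s).add (i2.const_mul _)
  have j2 : Integrable (fun g => s * ∑ σ, p σ * V g σ + s ^ 2 / 2 * ∑ σ, p σ * V g σ ^ 2
      - s ^ 2 / 2 * (∑ σ, p σ * V g σ) ^ 2) P := j1.sub (i3.const_mul _)
  have iQ : Integrable Q P := (integrable_const _).add j2
  have iD : Integrable D P :=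
    (integrable_finsetSum _ fun σ _ => (H.intK σ).const_mul _).const_mul _
  have iY : Integrable (fun g => Real.log (∑ σ, Real.exp (b σ + s * V g σ))) P :=
    integrable_log_sum (fun σ => measurable_const.add ((H.meas σ).const_mul s))
      fun σ => (integrable_const _).add ((H.int σ).const_mul s)
  have hb : ∀ g, |Real.log (∑ σ, Real.exp (b σ + s * V g σ)) - Q g| ≤ D g := fun g => by
    have he : ∑ σ, Real.exp (b σ + s * V g σ) = W * ∑ σ, p σ * Real.exp (s * V g σ) := by
      rw [Finset.mul_sum]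
      refine Finset.sum_congr rfl fun σ _ => ?_
      simp only [hpd]
      rw [Real.exp_add]
      field_simp
    have hpos : 0 < ∑ σ, p σ * Real.exp (s * V g σ) :=
      Finset.sum_pos (fun σ _ => mul_pos (div_pos (Real.exp_pos _) hW) (Real.exp_pos _))
        Finset.univ_nonempty
    rw [he, Real.log_mul hW.ne' hpos.ne']
    simp only [hQd, add_sub_add_left_eq_sub]
    exact log_pointwise hp hp1 hs0 hs1
  have hQ : ∫ g, Q g ∂P
      = Real.log W + s ^ 2 / 2 * (τ - ∑ σ, ∑ σ', p σ * p σ' * c σ σ') := by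
    have q1 : ∫ g, ∑ σ, p σ * V g σ ∂P = 0 := by
      rw [integral_finsetSum _ fun σ _ => (H.int σ).const_mul _]
      simp [integral_const_mul, H.mean]
    have q2 : ∫ g, ∑ σ, p σ * V g σ ^ 2 ∂P = τ := by
      simp only [sq]
      rw [integral_finsetSum _ fun σ _ => (H.int2 σ σ).const_mul _]
      simp [integral_const_mul, H.cov, H.diag, ← Finset.sum_mul, hp1]
    have q3 : ∫ g, (∑ σ, p σ * V g σ) ^ 2 ∂P = ∑ σ, ∑ σ', p σ * p σ' * c σ σ' := by
      simp_rw [e3]
      rw [integral_finsetSum _ fun σ _ => integrable_finsetSum _ fun σ' _ =>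
        (H.int2 σ σ').const_mul _]
      refine Finset.sum_congr rfl fun σ _ => ?_
      rw [integral_finsetSum _ fun σ' _ => (H.int2 σ σ').const_mul _]
      simp [integral_const_mul, H.cov]
    simp only [hQd]
    rw [integral_add (integrable_const _) j2, integral_sub j1 (i3.const_mul _),
      integral_add (i1.const_mul s) (i2.const_mul _), integral_const_mul, integral_const_mul,
      integral_const_mul, q1, q2, q3]
    simp
    ring
  rw [← hQ, ← integral_sub iY iQ]
  refine (abs_integral_le_integral_abs).trans ((integral_mono (iY.sub iQ).abs iD hb).trans ?_)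
  rw [integral_const_mul, integral_finsetSum _ fun σ _ => (H.intK σ).const_mul _]
  refine mul_le_mul_of_nonneg_left ?_ (by positivity)
  calc ∑ σ, ∫ g, p σ * wK (V g σ) ∂P ≤ ∑ σ, p σ * κ := Finset.sum_le_sum fun σ _ => by
        rw [integral_const_mul]; exact mul_le_mul_of_nonneg_left (H.boundK σ) (hp σ)
    _ = κ := by rw [← Finset.sum_mul, hp1, one_mul]

/-- The average log-partition function of `M` increments on top of `b`. -/
noncomputable def accum (P : Measure Ω) (V : Ω → S → ℝ) (s : ℝ) (M : ℕ) (b : S → ℝ) : ℝ :=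
  ∫ g, Real.log (∑ σ, Real.exp (b σ + ∑ a, s * V (g a) σ)) ∂Measure.pi fun _ : Fin M => P

lemma accum_int (H : Inc P V c τ κ) (s : ℝ) (M : ℕ) {Y : Type*} [MeasurableSpace Y]
    {ν : Measure Y} [IsProbabilityMeasure ν] {b : Y → S → ℝ}
    (hbm : ∀ σ, Measurable fun y => b y σ) (hbi : ∀ σ, Integrable (fun y => b y σ) ν) :
    Integrable (fun z : Y × (Fin M → Ω) =>
      Real.log (∑ σ, Real.exp (b z.1 σ + ∑ a, s * V (z.2 a) σ)))
      (ν.prod (Measure.pi fun _ : Fin M => P)) := by
  refine integrable_log_sum (fun σ => ((hbm σ).comp measurable_fst).add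
    (Finset.measurable_sum _ fun a _ =>
      ((H.meas σ).comp ((measurable_pi_apply a).comp measurable_snd)).const_mul s)) fun σ => ?_
  refine ((hbi σ).comp_fst _).add (integrable_finsetSum _ fun a _ => Integrable.const_mul ?_ _)
  exact (integrable_comp_eval (μ := fun _ : Fin M => P) (i := a) (H.int σ)).comp_snd ν

lemma accum_succ (H : Inc P V c τ κ) (s : ℝ) (M : ℕ) (b : S → ℝ) :
    accum P V s (M + 1) b = ∫ x, accum P V s M (fun σ => b σ + s * V x σ) ∂P := by
  have hsucc := (measurePreserving_piFinSuccAbove (fun _ : Fin (M + 1) => P) 0).symm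
  simp only [accum]
  rw [← hsucc.integral_comp', ← integral_prod (fun z : Ω × (Fin M → Ω) =>
    Real.log (∑ σ, Real.exp ((b σ + s * V z.1 σ) + ∑ a, s * V (z.2 a) σ)))]
  · refine integral_congr_ae (ae_of_all _ fun z => ?_)
    simp [MeasurableEquiv.piFinSuccAbove, Fin.insertNthEquiv, Fin.sum_univ_succ, add_assoc]
  · exact accum_int H s M (b := fun x σ => b σ + s * V x σ)
      (fun σ => measurable_const.add ((H.meas σ).const_mul s))
      fun σ => (integrable_const _).add ((H.int σ).const_mul s)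

variable {Ω' : Type*} [MeasurableSpace Ω'] {Q : Measure Ω'} [IsProbabilityMeasure Q]
  {U : Ω' → S → ℝ} {d : S → S → ℝ} {κ' : ℝ}

/-- Increments with smaller covariances give a larger average log-partition function. -/
theorem accum_le (H : Inc P V c τ κ) (H' : Inc Q U d τ κ') (hcd : ∀ σ σ', d σ σ' ≤ c σ σ')
    {s : ℝ} (hs0 : 0 < s) (hs1 : s ≤ 1) :
    ∀ (M : ℕ) (b : S → ℝ),
      accum P V s M b ≤ accum Q U s M b + M * (30 * s ^ 3 * (κ + κ'))
  | 0, b => by simp [accum]
  | M + 1, b => by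
    set e := 30 * s ^ 3 * (κ + κ')
    have hm : ∀ σ, Measurable fun x => b σ + s * V x σ :=
      fun σ => measurable_const.add ((H.meas σ).const_mul s)
    have hi : ∀ σ, Integrable (fun x => b σ + s * V x σ) P :=
      fun σ => (integrable_const _).add ((H.int σ).const_mul s)
    have hmix := accum_int H' s M (b := fun x σ => b σ + s * V x σ) hm hi
    rw [accum_succ H]
    calc ∫ x, accum P V s M (fun σ => b σ + s * V x σ) ∂P
        ≤ ∫ x, accum Q U s M (fun σ => b σ + s * V x σ) + M * e ∂P :=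
          integral_mono (accum_int H s M hm hi).integral_prod_left
            (hmix.integral_prod_left.add (integrable_const _))
            fun x => accum_le H H' hcd hs0 hs1 M fun σ => b σ + s * V x σ
      _ = (∫ g, ∫ x, Real.log (∑ σ, Real.exp ((b σ + s * V x σ) + ∑ a, s * U (g a) σ)) ∂P
            ∂Measure.pi fun _ : Fin M => Q) + M * e := by
          rw [integral_add ?_ (integrable_const _)]
          · simp only [accum]
            rw [integral_integral_swap hmix]
            simp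
          · exact hmix.integral_prod_left
      _ ≤ ((∫ g, ∫ x, Real.log (∑ σ, Real.exp ((b σ + s * U x σ) + ∑ a, s * U (g a) σ)) ∂Q
            ∂Measure.pi fun _ : Fin M => Q) + e) + M * e := by
          have hU := accum_int H' s M (b := fun x σ => b σ + s * U x σ)
            (fun σ => measurable_const.add ((H'.meas σ).const_mul s))
            fun σ => (integrable_const _).add ((H'.int σ).const_mul s)
          refine add_le_add ((integral_mono hmix.integral_prod_right
            (hU.integral_prod_right.add (integrable_const e)) fun g => ?_).trans (le_of_eq ?_)) le_rfl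
          · simp only [Pi.add_apply, add_right_comm (b _) (s * _)]
            set b' := fun σ => b σ + ∑ a, s * U (g a) σ
            obtain ⟨h1, h2⟩ := abs_le.1 (log_step H hs0 hs1 b')
            obtain ⟨h3, h4⟩ := abs_le.1 (log_step H' hs0 hs1 b')
            have hle : ∑ σ, ∑ σ', Real.exp (b' σ) / (∑ ρ, Real.exp (b' ρ))
                * (Real.exp (b' σ') / (∑ ρ, Real.exp (b' ρ))) * d σ σ'
              ≤ ∑ σ, ∑ σ', Real.exp (b' σ) / (∑ ρ, Real.exp (b' ρ))
                * (Real.exp (b' σ') / (∑ ρ, Real.exp (b' ρ))) * c σ σ' :=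
              Finset.sum_le_sum fun σ _ => Finset.sum_le_sum fun σ' _ =>
                mul_le_mul_of_nonneg_left (hcd σ σ') (by positivity)
            have hs2 := mul_le_mul_of_nonneg_left hle (by positivity : (0 : ℝ) ≤ s ^ 2 / 2)
            simp only [e]
            linarith
          · rw [integral_add' hU.integral_prod_right (integrable_const e)]
            simp
      _ = _ := by
          rw [accum_succ H']
          simp only [accum]
          rw [integral_integral_swap]
          · push_cast; ring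
          · exact (accum_int H' s M (b := fun x σ => b σ + s * U x σ)
              (fun σ => measurable_const.add ((H'.meas σ).const_mul s))
              fun σ => (integrable_const _).add ((H'.int σ).const_mul s)).swap

end Comparison

end Vale.Agent.P157.High
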