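import Vale.Agent.P157.High.Convex
import Mathlib.Analysis.Subadditive

/-!
Convergence of the ground state energy for even potentials, and the main statement.
-/

open MeasureTheory ProbabilityTheory Filter Topology
open scoped BigOperators

namespace Vale.Agent.P157.High

open Rsb

variable {S : Type*} [Fintype S] [Nonempty S]

/-- Larger covariances give a smaller expected maximum. -/
lemma emax_le {κ κ' : Type*} [Fintype κ] [Fintype κ'] {c d : S → S → ℝ} {τ B : ℝ} (hB : 0 ≤ B)
    (hτ : τ ≤ (2 * B) ^ 2) (A : S → κ → ℝ) (hA : ∀ σ σ', ∑ i, A σ i * A σ' i = c σ σ')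
    (hc : ∀ σ, c σ σ = τ) (D : S → κ' → ℝ) (hD : ∀ σ σ', ∑ i, D σ i * D σ' i = d σ σ')
    (hd : ∀ σ, d σ σ = τ) (hcd : ∀ σ σ', d σ σ' ≤ c σ σ') : emax A ≤ emax D := by
  refine le_of_forall_pos_le_add fun ε hε => ?_
  have HA := inc_gauss A hA hc hτ hB
  have HD := inc_gauss D hD hd hτ hB
  set L := Real.log (Fintype.card S)
  have hL : 0 ≤ L := Real.log_nonneg (by exact_mod_cast Fintype.card_pos)
  have hk := kapB_nonneg B
  set β := 2 * L / ε + 1
  have hβ : 0 < β := by positivity
  obtain ⟨K, hK⟩ := exists_nat_ge (max β (120 * β ^ 2 * kapB B / ε) + 1)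
  set s := β / K
  have hKβ : β ≤ K := by linarith [le_max_left β (120 * β ^ 2 * kapB B / ε)]
  have hK0 : (0 : ℝ) < K := hβ.trans_le hKβ
  have hs0 : 0 < s := div_pos hβ hK0
  have hs1 : s ≤ 1 := (div_le_one hK0).2 hKβ
  have h := accum_le HA HD hcd hs0 hs1 (K ^ 2) fun _ => 0
  rw [accum_gauss, accum_gauss] at h
  have hsq : s * Real.sqrt ((K ^ 2 : ℕ) : ℝ) = β := by
    push_cast
    rw [Real.sqrt_sq hK0.le]
    simp only [s]
    field_simp
  rw [hsq] at h
  obtain ⟨h1, -⟩ := lse_gauss_bounds A hβ.le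
  obtain ⟨-, h4⟩ := lse_gauss_bounds D hβ.le
  have herr : ((K ^ 2 : ℕ) : ℝ) * (30 * s ^ 3 * (kapB B + kapB B)) ≤ β * (ε / 2) := by
    have e : ((K ^ 2 : ℕ) : ℝ) * (30 * s ^ 3 * (kapB B + kapB B))
        = β * (60 * β ^ 2 * kapB B / K) := by
      push_cast; simp only [s]; field_simp; ring
    rw [e]
    refine mul_le_mul_of_nonneg_left ?_ hβ.le
    rw [div_le_iff₀ hK0]
    have : 120 * β ^ 2 * kapB B / ε ≤ K := by
      linarith [le_max_right β (120 * β ^ 2 * kapB B / ε)]
    rw [div_le_iff₀ hε] at this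
    linarith
  have hLβ : L ≤ β * (ε / 2) := by
    simp only [β]
    field_simp
    linarith
  have : β * emax A ≤ β * (emax D + ε) := by linarith
  exact le_of_mul_le_mul_left this hβ

section Super

variable {n k : ℕ}

/-- The left half of a configuration. -/
def sL (σ : Fin (n + k) → Bool) : Fin n → Bool := fun i => σ (Fin.castAdd k i)

/-- The right half of a configuration. -/
def sR (σ : Fin (n + k) → Bool) : Fin k → Bool := fun i => σ (Fin.natAdd n i)

lemma overlap_split (hn : 0 < n) (hk : 0 < k) (σ τ : Fin (n + k) → Bool) :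
    ∑ i, xv σ i * xv τ i
      = (n : ℝ) / (n + k) * (∑ i, xv (sL σ) i * xv (sL τ) i)
        + (k : ℝ) / (n + k) * (∑ i, xv (sR σ) i * xv (sR τ) i) := by
  have hn' : (0 : ℝ) < n := Nat.cast_pos.2 hn
  have hk' : (0 : ℝ) < k := Nat.cast_pos.2 hk
  simp only [xv, div_mul_div_comm, Real.mul_self_sqrt (Nat.cast_nonneg _), ← Finset.sum_div,
    Fin.sum_univ_add, Nat.cast_add]
  rw [Real.mul_self_sqrt (by positivity)]
  have eL : ∀ (ρ : Fin (n + k) → Bool) i, sg (sL ρ) i = sg ρ (Fin.castAdd k i) := fun _ _ => rfl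
  have eR : ∀ (ρ : Fin (n + k) → Bool) i, sg (sR ρ) i = sg ρ (Fin.natAdd n i) := fun _ _ => rfl
  simp only [eL, eR]
  field_simp

lemma emax_super (hn : 0 < n) (hk : 0 < k) {f : ℝ → ℝ} {B : ℝ} (hf : Measurable f)
    (hb : ∀ x, |f x| ≤ B) (he : ∀ x, f (-x) = f x)
    {a b c : ℕ} (A : (Fin n → Bool) → Fin a → ℝ) (hA : ∀ σ τ, ∑ i, A σ i * A τ i = covKer f σ τ)
    (D : (Fin k → Bool) → Fin b → ℝ) (hD : ∀ σ τ, ∑ i, D σ i * D τ i = covKer f σ τ)
    (E : (Fin (n + k) → Bool) → Fin c → ℝ)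
    (hE : ∀ σ τ, ∑ i, E σ i * E τ i = covKer f σ τ) :
    Real.sqrt n * emax A + Real.sqrt k * emax D ≤ Real.sqrt (n + k : ℕ) * emax E := by
  have hB : 0 ≤ B := (abs_nonneg _).trans (hb 0)
  have hn' : (0 : ℝ) < n := Nat.cast_pos.2 hn
  have hk' : (0 : ℝ) < k := Nat.cast_pos.2 hk
  set p := Real.sqrt ((n : ℝ) / (n + k))
  set q := Real.sqrt ((k : ℝ) / (n + k))
  have hp : p * p = (n : ℝ) / (n + k) := Real.mul_self_sqrt (by positivity)
  have hq : q * q = (k : ℝ) / (n + k) := Real.mul_self_sqrt (by positivity)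
  let G : (Fin (n + k) → Bool) → Fin a ⊕ Fin b → ℝ := fun σ =>
    Sum.elim (fun i => p * A (sL σ) i) (fun i => q * D (sR σ) i)
  have hG : ∀ σ τ, ∑ i, G σ i * G τ i
      = (n : ℝ) / (n + k) * covKer f (sL σ) (sL τ) + (k : ℝ) / (n + k) * covKer f (sR σ) (sR τ) := by
    intro σ τ
    rw [← hA, ← hD, ← hp, ← hq, Finset.mul_sum, Finset.mul_sum, Fintype.sum_sum_type]
    simp only [G, Sum.elim_inl, Sum.elim_inr]
    congr 1 <;> exact Finset.sum_congr rfl fun i _ => by ring
  have hN : 0 < n + k := by omega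
  have hdiag : ∀ σ : Fin (n + k) → Bool, (n : ℝ) / (n + k) * covKer f (sL σ) (sL σ)
      + (k : ℝ) / (n + k) * covKer f (sR σ) (sR σ) = vr f := fun σ => by
    rw [covKer_diag hn hf, covKer_diag hk hf]
    field_simp
  have hle : emax G ≤ emax E := by
    refine emax_le hB (vr_le hf hb) G hG hdiag E hE (covKer_diag hN hf) fun σ τ => ?_
    rw [covKer_even hN hf hb he, covKer_even hn hf hb he, covKer_even hk hf hb he,
      overlap_split hn hk]
    exact sqMean_abs_convex (measurable_cen hf) (cen_bdd hb) (fun x => by simp [cen, he])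
      (by positivity) (by positivity) (by field_simp)
      (abs_overlap_le (xv_unit hn _) (xv_unit hn _)) (abs_overlap_le (xv_unit hk _) (xv_unit hk _))
  have hsplit : ∀ z : Fin a ⊕ Fin b → ℝ, top (gf G z)
      = p * top (gf A (fun i => z (Sum.inl i))) + q * top (gf D (fun i => z (Sum.inr i))) := by
    intro z
    have e : ∀ σ, gf G z σ = p * gf A (fun i => z (Sum.inl i)) (sL σ)
        + q * gf D (fun i => z (Sum.inr i)) (sR σ) := fun σ => by
      simp only [gf, G, Fintype.sum_sum_type, Sum.elim_inl, Sum.elim_inr, Finset.mul_sum]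
      congr 1 <;> exact Finset.sum_congr rfl fun i _ => by ring
    apply le_antisymm
    · refine Finset.sup'_le _ _ fun σ _ => ?_
      rw [e]
      exact add_le_add (mul_le_mul_of_nonneg_left (Finset.le_sup' _ (Finset.mem_univ _))
        (Real.sqrt_nonneg _)) (mul_le_mul_of_nonneg_left (Finset.le_sup' _ (Finset.mem_univ _))
        (Real.sqrt_nonneg _))
    · obtain ⟨u, -, hu⟩ := Finset.exists_mem_eq_sup' Finset.univ_nonempty
        (gf A fun i => z (Sum.inl i))
      obtain ⟨v, -, hv⟩ := Finset.exists_mem_eq_sup' Finset.univ_nonempty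
        (gf D fun i => z (Sum.inr i))
      have := Finset.le_sup' (gf G z) (Finset.mem_univ (Fin.append u v))
      rw [e] at this
      have e1 : sL (Fin.append u v) = u := funext fun i => by simp [sL]
      have e2 : sR (Fin.append u v) = v := funext fun i => by simp [sR]
      rw [e1, e2, ← hu, ← hv] at this
      exact this
  have hml : (gaussVec (Fin a ⊕ Fin b)).map (fun z i => z (Sum.inl i)) = gaussVec (Fin a) :=
    map_comp_injective (gaussianReal 0 1) Sum.inl_injective
  have hmr : (gaussVec (Fin a ⊕ Fin b)).map (fun z i => z (Sum.inr i)) = gaussVec (Fin b) :=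
    map_comp_injective (gaussianReal 0 1) Sum.inr_injective
  have hAm := measurable_top (gf_measurable A)
  have hDm := measurable_top (gf_measurable D)
  have iA : Integrable (fun z : Fin a ⊕ Fin b → ℝ => top (gf A fun i => z (Sum.inl i)))
      (gaussVec (Fin a ⊕ Fin b)) := by
    have := integrable_top (μ := gaussVec (Fin a)) (gf_measurable A) (gf_integrable A)
    rw [← hml] at this
    exact (integrable_map_measure hAm.aestronglyMeasurable (Measurable.aemeasurable (by fun_prop))).1 this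
  have iD : Integrable (fun z : Fin a ⊕ Fin b → ℝ => top (gf D fun i => z (Sum.inr i)))
      (gaussVec (Fin a ⊕ Fin b)) := by
    have := integrable_top (μ := gaussVec (Fin b)) (gf_measurable D) (gf_integrable D)
    rw [← hmr] at this
    exact (integrable_map_measure hDm.aestronglyMeasurable (Measurable.aemeasurable (by fun_prop))).1 this
  have hGe : emax G = p * emax A + q * emax D := by
    have eA : ∫ z : Fin a ⊕ Fin b → ℝ, top (gf A fun i => z (Sum.inl i))
        ∂gaussVec (Fin a ⊕ Fin b) = emax A := by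
      rw [← integral_map (φ := fun (z : Fin a ⊕ Fin b → ℝ) i => z (Sum.inl i))
        (f := fun v => top (gf A v)) (Measurable.aemeasurable (by fun_prop))
        hAm.aestronglyMeasurable, hml, emax]
    have eD : ∫ z : Fin a ⊕ Fin b → ℝ, top (gf D fun i => z (Sum.inr i))
        ∂gaussVec (Fin a ⊕ Fin b) = emax D := by
      rw [← integral_map (φ := fun (z : Fin a ⊕ Fin b → ℝ) i => z (Sum.inr i))
        (f := fun v => top (gf D v)) (Measurable.aemeasurable (by fun_prop))
        hDm.aestronglyMeasurable, hmr, emax]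
    rw [emax]
    simp only [hsplit]
    rw [integral_add (iA.const_mul p) (iD.const_mul q), integral_const_mul, integral_const_mul,
      eA, eD]
  have hs : Real.sqrt ((n + k : ℕ) : ℝ) * (p * emax A + q * emax D)
      = Real.sqrt n * emax A + Real.sqrt k * emax D := by
    have h0 : (0 : ℝ) ≤ n + k := by positivity
    simp only [p, q]
    push_cast
    rw [mul_add, ← mul_assoc, ← mul_assoc, ← Real.sqrt_mul h0, ← Real.sqrt_mul h0,
      mul_div_cancel₀ _ (by positivity : (n : ℝ) + k ≠ 0),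
      mul_div_cancel₀ _ (by positivity : (n : ℝ) + k ≠ 0)]
  rw [← hs, ← hGe]
  exact mul_le_mul_of_nonneg_left hle (Real.sqrt_nonneg _)

end Super

/-- The main statement. -/
theorem high_density (B : ℝ) : ∃ K : ℝ, ∀ f : ℝ → ℝ, Measurable f → (∀ x, |f x| ≤ B) →
    ∃ G : ℕ → ℝ, (∀ N, IsGroundEnergy f N (G N)) ∧
      (∀ α : ℝ, 1 ≤ α → ∀ N : ℕ, 0 < N →
        |pressure α f N (isingMeasure N) - (⌊α * N⌋₊ : ℝ) / N * (∫ z, f z ∂gaussianReal 0 1)
          - Real.sqrt ((⌊α * N⌋₊ : ℝ) / N) * G N| ≤ K * α ^ (1 / 3 : ℝ)) ∧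
      ((∀ x, f (-x) = f x) → ∃ E : ℝ, Tendsto G atTop (𝓝 E) ∧
        ∀ α : ℝ, 1 ≤ α → ∀ᶠ N : ℕ in atTop,
          |pressure α f N (isingMeasure N) - α * (∫ z, f z ∂gaussianReal 0 1) - Real.sqrt α * E|
            ≤ (K + 1) * α ^ (1 / 3 : ℝ)) := by
  refine ⟨errK B, fun f hf hb => ?_⟩
  choose m A hA using fun N => exists_factor (N := N) hf hb
  set G : ℕ → ℝ := fun N => emax (A N) / Real.sqrt N with hGd
  have hbound : ∀ α : ℝ, 1 ≤ α → ∀ N : ℕ, 0 < N →
      |pressure α f N (isingMeasure N) - (⌊α * N⌋₊ : ℝ) / N * (∫ z, f z ∂gaussianReal 0 1)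
        - Real.sqrt ((⌊α * N⌋₊ : ℝ) / N) * G N| ≤ errK B * α ^ (1 / 3 : ℝ) :=
    fun α hα N hN => pressure_high hN hf hb (A N) (hA N) hα
  refine ⟨G, fun N => ⟨m N, A N, hA N, rfl⟩, hbound, fun he => ?_⟩
  set u : ℕ → ℝ := fun N => -(Real.sqrt N * emax (A N))
  have hu : Subadditive u := by
    intro n k
    rcases Nat.eq_zero_or_pos n with rfl | hn
    · simp only [u, zero_add, Nat.cast_zero, Real.sqrt_zero, zero_mul, neg_zero]
      exact le_rfl
    rcases Nat.eq_zero_or_pos k with rfl | hk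
    · simp only [u, add_zero, Nat.cast_zero, Real.sqrt_zero, zero_mul, neg_zero]
      exact le_rfl
    have := emax_super hn hk hf hb he (A n) (hA n) (A k) (hA k) (A (n + k)) (hA (n + k))
    simp only [u]
    linarith
  have hdiv : ∀ N : ℕ, u N / N = -G N := fun N => by
    simp only [u, G, neg_div]
    rw [neg_inj, mul_comm, mul_div_assoc, Real.sqrt_div_self', ← div_eq_mul_one_div]
  have hmean : |∫ z, f z ∂gaussianReal 0 1| ≤ B := by
    simpa using norm_integral_le_of_norm_le_const (μ := gaussianReal 0 1) (f := f) (C := B)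
      (ae_of_all _ hb)
  have hB : 0 ≤ B := (abs_nonneg _).trans (hb 0)
  have hbdd : BddBelow (Set.range fun N => u N / N) := by
    refine ⟨-(2 * B + |errK B|), ?_⟩
    rintro x ⟨N, rfl⟩
    simp only [hdiv]
    rcases Nat.eq_zero_or_pos N with rfl | hN
    · simp [G]; linarith [abs_nonneg (errK B)]
    have h1 := hbound 1 le_rfl N hN
    simp only [one_mul, Nat.floor_natCast, Real.one_rpow, mul_one,
      div_self (Nat.cast_ne_zero.2 hN.ne' : (N : ℝ) ≠ 0), Real.sqrt_one] at h1
    have hp : |pressure 1 f N (isingMeasure N)| ≤ B := by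
      simp only [pressure]
      have hNr : (0 : ℝ) < N := Nat.cast_pos.2 hN
      rw [abs_div, abs_of_pos hNr, div_le_iff₀ hNr]
      have hfl : ⌊(1 : ℝ) * N⌋₊ = N := by simp
      refine (abs_integral_le_integral_abs).trans ?_
      refine (integral_mono_of_nonneg (ae_of_all _ fun g => abs_nonneg _)
        (integrable_const ((⌊(1 : ℝ) * N⌋₊ : ℝ) * B)) (ae_of_all _ fun g =>
          abs_logMean_le (μ := isingOn (Fin N)) (by fun_prop) fun x => ?_)).trans (le_of_eq ?_)
      · refine (Finset.abs_sum_le_sum_abs _ _).trans ((Finset.sum_le_sum fun a _ => hb _).trans ?_)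
        simp
      · simp [hfl, mul_comm]
    linarith [le_abs_self (errK B), abs_le.1 h1, abs_le.1 hp, abs_le.1 hmean]
  have hlim := hu.tendsto_lim hbdd
  simp only [hdiv] at hlim
  refine ⟨-hu.lim, by simpa using hlim.neg, fun α hα => ?_⟩
  set E := -hu.lim
  set m₀ := ∫ z, f z ∂gaussianReal 0 1
  have hGE : Tendsto G atTop (𝓝 E) := by simpa using hlim.neg
  have hρ : Tendsto (fun N : ℕ => (⌊α * N⌋₊ : ℝ) / N) atTop (𝓝 α) :=
    (tendsto_nat_floor_mul_div_atTop (by linarith)).comp tendsto_natCast_atTop_atTop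
  have hT : Tendsto (fun N : ℕ => (⌊α * N⌋₊ : ℝ) / N * m₀ + Real.sqrt ((⌊α * N⌋₊ : ℝ) / N) * G N)
      atTop (𝓝 (α * m₀ + Real.sqrt α * E)) :=
    (hρ.mul_const _).add (((Real.continuous_sqrt.tendsto α).comp hρ).mul hGE)
  have h13 : 1 ≤ α ^ (1 / 3 : ℝ) := Real.one_le_rpow hα (by norm_num)
  filter_upwards [eventually_gt_atTop 0,
    hT.eventually (Metric.ball_mem_nhds _ one_pos)] with N hN hN'
  rw [Real.dist_eq] at hN'
  have := hbound α hα N hN
  rw [abs_le] at this ⊢
  rw [abs_lt] at hN'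
  constructor <;> linarith

end Vale.Agent.P157.High
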