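import Vale.Agent.P157.High.Defs
import Vale.Agent.P157.High.LogStep
import Vale.Agent.P157.Rsb.Upper
import Mathlib.Analysis.InnerProductSpace.Positive

/-!
The two increments on the cube: a pattern and a Gaussian vector with the same covariance.
-/

open MeasureTheory ProbabilityTheory
open scoped BigOperators

namespace Vale.Agent.P157.High

open Rsb

lemma cubeField_eq {N : ℕ} (g : Fin N → ℝ) (σ : Fin N → Bool) : cubeField g σ = lin g σ := rfl

/-- The centred potential. -/
noncomputable def cen (f : ℝ → ℝ) (x : ℝ) : ℝ := f x - ∫ z, f z ∂gaussianReal 0 1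

lemma covKer_eq (f : ℝ → ℝ) {N : ℕ} (σ τ : Fin N → Bool) :
    covKer f σ τ = ∫ g, cen f (lin g σ) * cen f (lin g τ) ∂gaussVec (Fin N) := rfl

variable {f : ℝ → ℝ} {B : ℝ}

lemma cen_bdd (hb : ∀ x, |f x| ≤ B) (x : ℝ) : |cen f x| ≤ 2 * B := by
  have : |∫ z, f z ∂gaussianReal 0 1| ≤ B := by
    simpa using norm_integral_le_of_norm_le_const (μ := gaussianReal 0 1) (f := f) (C := B)
      (ae_of_all _ hb)
  exact (abs_sub _ _).trans (by linarith [hb x])

lemma measurable_cen (hf : Measurable f) : Measurable (cen f) := hf.sub_const _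

lemma integral_cen (hf : Measurable f) (hb : ∀ x, |f x| ≤ B) :
    ∫ z, cen f z ∂gaussianReal 0 1 = 0 := by
  simp only [cen]
  rw [integral_sub (bdd_int hf hb) (integrable_const _)]
  simp

/-- The common variance. -/
noncomputable def vr (f : ℝ → ℝ) : ℝ := ∫ z, cen f z ^ 2 ∂gaussianReal 0 1

lemma vr_nonneg (f : ℝ → ℝ) : 0 ≤ vr f := integral_nonneg fun _ => sq_nonneg _

lemma vr_le (hf : Measurable f) (hb : ∀ x, |f x| ≤ B) : vr f ≤ (2 * B) ^ 2 := by
  have h : ∀ x, cen f x ^ 2 ≤ (2 * B) ^ 2 := fun x => by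
    rw [← sq_abs]; exact pow_le_pow_left₀ (abs_nonneg _) (cen_bdd hb x) 2
  refine (integral_mono (bdd_int ((measurable_cen hf).pow_const 2) (C := (2 * B) ^ 2) fun x => ?_)
    (integrable_const ((2 * B) ^ 2)) h).trans (le_of_eq (by simp))
  rw [abs_of_nonneg (sq_nonneg _)]; exact h x

lemma integral_lin {N : ℕ} (hN : 0 < N) (σ : Fin N → Bool) {F : ℝ → ℝ} (hF : Measurable F) :
    ∫ g, F (lin g σ) ∂gaussVec (Fin N) = ∫ z, F z ∂gaussianReal 0 1 := by
  unfold lin; rw [integral_linear (xv σ) hF, xv_unit hN σ]; simp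

lemma covKer_diag {N : ℕ} (hN : 0 < N) (hf : Measurable f) (σ : Fin N → Bool) :
    covKer f σ σ = vr f := by
  rw [covKer_eq]
  have := integral_lin hN σ (F := fun t => cen f t * cen f t)
    ((measurable_cen hf).mul (measurable_cen hf))
  rw [this]
  simp [vr, sq]

/-- The error constant of one increment. -/
noncomputable def kapB (B : ℝ) : ℝ :=
  ∫ z, (1 + (2 * B) ^ 6 + (2 * B) ^ 6 * |z| ^ 6)
    * Real.exp (4 * (2 * B) + 4 * (2 * B) * |z|) ∂gaussianReal 0 1

lemma integrable_kapB (B : ℝ) :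
    Integrable (fun z => (1 + (2 * B) ^ 6 + (2 * B) ^ 6 * |z| ^ 6)
      * Real.exp (4 * (2 * B) + 4 * (2 * B) * |z|)) (gaussianReal 0 1) := by
  refine (((integrable_pow_exp 0 (4 * (2 * B))).const_mul ((1 + (2 * B) ^ 6) * Real.exp (4 * (2 * B)))).add
    ((integrable_pow_exp 6 (4 * (2 * B))).const_mul ((2 * B) ^ 6 * Real.exp (4 * (2 * B))))).congr
    (ae_of_all _ fun z => ?_)
  simp only [Pi.add_apply, Real.exp_add, pow_zero, one_mul]
  ring

lemma kapB_nonneg (B : ℝ) : 0 ≤ kapB B := integral_nonneg fun z => by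
  have h6 : 0 ≤ (2 * B) ^ 6 := Even.pow_nonneg (by decide) _
  positivity

lemma wK_mono {x y : ℝ} (h : |x| ≤ |y|) : wK x ≤ wK y := by
  unfold wK
  rw [← Even.pow_abs (by decide : Even 6) x, ← Even.pow_abs (by decide : Even 6) y]
  gcongr

lemma wK_scaled_le {c z : ℝ} (hc : |c| ≤ 2 * B) :
    wK (c * z) ≤ (1 + (2 * B) ^ 6 + (2 * B) ^ 6 * |z| ^ 6)
      * Real.exp (4 * (2 * B) + 4 * (2 * B) * |z|) := by
  have hB : 0 ≤ 2 * B := (abs_nonneg _).trans hc
  refine (wK_mono (y := 2 * B * |z|) ?_).trans ?_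
  · rw [abs_mul, abs_mul, abs_abs, abs_of_nonneg hB]
    exact mul_le_mul_of_nonneg_right hc (abs_nonneg _)
  · unfold wK
    rw [abs_mul, abs_abs, abs_of_nonneg hB, mul_pow, ← mul_assoc 4]
    refine mul_le_mul (by nlinarith [pow_nonneg hB 6]) (Real.exp_le_exp.2 (by linarith))
      (Real.exp_pos _).le (by positivity)

lemma inc_pattern {N : ℕ} (hN : 0 < N) (hf : Measurable f) (hb : ∀ x, |f x| ≤ B) :
    Inc (gaussVec (Fin N)) (fun g σ => cen f (lin g σ)) (covKer f) (vr f) (kapB B) := by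
  have hm := measurable_cen hf
  have hB : 0 ≤ 2 * B := by linarith [(abs_nonneg _).trans (hb 0)]
  have hwm : Measurable wK := by unfold wK; fun_prop
  refine ⟨fun σ => hm.comp (measurable_lin σ),
    fun σ => bdd_int (hm.comp (measurable_lin σ)) fun g => cen_bdd hb _,
    fun σ => (integral_lin hN σ hm).trans (integral_cen hf hb),
    fun σ σ' => bdd_int ((hm.comp (measurable_lin σ)).mul (hm.comp (measurable_lin σ')))
      (C := 2 * B * (2 * B)) fun g => by
        rw [abs_mul]; exact mul_le_mul (cen_bdd hb _) (cen_bdd hb _) (abs_nonneg _) hB,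
    fun σ σ' => rfl, covKer_diag hN hf,
    fun σ => bdd_int (hwm.comp (hm.comp (measurable_lin σ)))
      (C := (1 + (2 * B) ^ 6) * Real.exp (4 * (2 * B))) fun g => ?_, fun σ => ?_⟩
  · rw [abs_of_nonneg (wK_nonneg _)]
    exact wK_le (cen_bdd hb _)
  · rw [integral_lin hN σ (F := fun t => wK (cen f t)) (hwm.comp hm)]
    refine integral_mono (bdd_int (hwm.comp hm) (C := (1 + (2 * B) ^ 6) * Real.exp (4 * (2 * B)))
      fun z => ?_) (integrable_kapB B) fun z => ?_
    · rw [abs_of_nonneg (wK_nonneg _)]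
      exact wK_le (cen_bdd hb _)
    · refine (wK_le (cen_bdd hb z)).trans (mul_le_mul ?_ (Real.exp_le_exp.2 ?_)
        (Real.exp_pos _).le (by positivity))
      · have : 0 ≤ (2 * B) ^ 6 * |z| ^ 6 := by positivity
        linarith
      · have : 0 ≤ 4 * (2 * B) * |z| := by positivity
        linarith

/-- The Gaussian increment of a factor. -/
noncomputable def gf {S κ : Type*} [Fintype κ] (A : S → κ → ℝ) (z : κ → ℝ) (σ : S) : ℝ :=
  ∑ i, z i * A σ i

lemma inc_gauss {S κ : Type*} [Fintype S] [Fintype κ] {c : S → S → ℝ} (A : S → κ → ℝ)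
    (hA : ∀ σ σ', ∑ i, A σ i * A σ' i = c σ σ') {τ : ℝ} (hd : ∀ σ, c σ σ = τ)
    (hτ : τ ≤ (2 * B) ^ 2) (hB : 0 ≤ B) :
    Inc (gaussVec κ) (gf A) c τ (kapB B) := by
  have hsum : ∀ σ, ∑ i, A σ i ^ 2 = τ := fun σ => by rw [← hd σ, ← hA σ σ]; simp [sq]
  have hc : ∀ σ, |Real.sqrt (∑ i, A σ i ^ 2)| ≤ 2 * B := fun σ => by
    rw [hsum, abs_of_nonneg (Real.sqrt_nonneg _)]
    exact Real.sqrt_le_iff.2 ⟨by linarith, hτ⟩
  have hwm : Measurable wK := by unfold wK; fun_prop
  have hKi : ∀ σ, Integrable (fun z => wK (Real.sqrt (∑ i, A σ i ^ 2) * z)) (gaussianReal 0 1) :=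
    fun σ => integrable_wK_gauss _
  refine ⟨fun σ => measurable_linear (A σ), fun σ => ?_, fun σ => integral_linear_id (A σ),
    fun σ σ' => integrable_linear_mul (A σ) (A σ'),
    fun σ σ' => (integral_linear_mul (A σ) (A σ')).trans (hA σ σ'), hd,
    fun σ => integrable_linear (A σ) hwm (hKi σ), fun σ => ?_⟩
  · exact integrable_linear (A σ) (F := fun y => y) measurable_id
      ((by simpa using integrable_pow_gauss 1 : Integrable (fun z : ℝ => z) (gaussianReal 0 1)).const_mul _)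
  · simp only [gf]
    rw [integral_linear (A σ) hwm]
    exact integral_mono (hKi σ) (integrable_kapB B) fun z => wK_scaled_le (hc σ)

/-- A factor of the covariance matrix exists. -/
lemma exists_factor {N : ℕ} (hf : Measurable f) (hb : ∀ x, |f x| ≤ B) :
    ∃ (m : ℕ) (A : (Fin N → Bool) → Fin m → ℝ), ∀ σ τ, ∑ i, A σ i * A τ i = covKer f σ τ := by
  classical
  have hm := measurable_cen hf
  have hB : 0 ≤ 2 * B := by linarith [(abs_nonneg _).trans (hb 0)]
  set M : Matrix (Fin N → Bool) (Fin N → Bool) ℝ := Matrix.of fun σ τ => covKer f σ τ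
  have hint : ∀ σ τ : Fin N → Bool,
      Integrable (fun g => cen f (lin g σ) * cen f (lin g τ)) (gaussVec (Fin N)) := fun σ τ =>
    bdd_int ((hm.comp (measurable_lin σ)).mul (hm.comp (measurable_lin τ))) (C := 2 * B * (2 * B))
      fun g => by rw [abs_mul]; exact mul_le_mul (cen_bdd hb _) (cen_bdd hb _) (abs_nonneg _) hB
  have hP : M.PosSemidef := by
    refine Matrix.PosSemidef.of_dotProduct_mulVec_nonneg ?_ fun x => ?_
    · ext σ τ
      simp only [Matrix.conjTranspose_apply, star_trivial, M, Matrix.of_apply, covKer_eq]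
      exact integral_congr_ae (ae_of_all _ fun g => mul_comm _ _)
    · have e : star x ⬝ᵥ (M.mulVec x) = ∫ g, (∑ σ, x σ * cen f (lin g σ)) ^ 2 ∂gaussVec (Fin N) := by
        simp only [dotProduct, Matrix.mulVec, star_trivial, M, Matrix.of_apply, covKer_eq,
          Finset.mul_sum, ← integral_mul_const, ← integral_const_mul]
        have e2 : ∀ g, (∑ σ, x σ * cen f (lin g σ)) ^ 2
            = ∑ σ, ∑ τ, x σ * (cen f (lin g σ) * cen f (lin g τ) * x τ) := fun g => by
          rw [sq, Finset.sum_mul_sum]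
          exact Finset.sum_congr rfl fun σ _ => Finset.sum_congr rfl fun τ _ => by ring
        simp_rw [e2]
        rw [integral_finsetSum _ fun σ _ => integrable_finsetSum _ fun τ _ =>
          ((hint σ τ).mul_const _).const_mul _]
        exact Finset.sum_congr rfl fun σ _ => (integral_finsetSum _ fun τ _ =>
          ((hint σ τ).mul_const _).const_mul _).symm
      rw [e]
      exact integral_nonneg fun g => sq_nonneg _
  obtain ⟨m, v, hv⟩ := Matrix.posSemidef_iff_eq_sum_vecMulVec.1 hP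
  refine ⟨m, fun σ i => v i σ, fun σ τ => ?_⟩
  have := congrFun (congrFun hv σ) τ
  simpa [M, Matrix.sum_apply, Matrix.vecMulVec_apply] using this.symm

end Vale.Agent.P157.High
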